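import Vale.Agent.P042.H161.HtoK
import Vale.Agent.P042.H858.MSub

/-!
# P042: the pinned form of Theorem H passes to marginal laws

`PH lam (gr lam mu) Hi M G b0` implies the same for the marginal law on the coordinates with `p`.
-/

set_option autoImplicit false

namespace Vale.Agent.P042.H276

open Finset Vale.Agent.P042.H461 Vale.Agent.P042.H416 Vale.Agent.P042.H742 Vale.Agent.P042.H365
open Vale.Agent.P042.H161 (hp PH)
open Vale.Agent.P042.H779 (marg m1)

section

variable {ι : Type*} [Fintype ι] [DecidableEq ι] {V : ι → Type*} [∀ i, Fintype (V i)]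
  [∀ i, DecidableEq (V i)]

/-- monotonicity in all parameters -/
theorem PH.mono {lam : ∀ i, V i → ℝ} (h0 : ∀ i a, 0 ≤ lam i a)
    {g : Finset ι → (∀ i, V i) → ℝ} {Hi Hi' : Finset ι} {M M' : ι → ℝ} {G G' : ℝ} {b0 b0' : ℕ}
    (h : PH lam g Hi M G b0) (hH : Hi' ⊆ Hi) (hM0 : ∀ i, 0 ≤ M i) (hM : ∀ i, M i ≤ M' i)
    (hG0 : 0 ≤ G) (hG : G ≤ G') (hb : b0' ≤ b0) : PH lam g Hi' M' G' b0' := by
  intro A e hA w
  refine ((Finset.sum_le_sum_of_subset_of_nonneg
    (powersetCard_mono (sdiff_subset_sdiff hH (subset_refl A)))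
    fun U _ _ => Finset.sum_nonneg fun x _ => mul_nonneg (W_nonneg h0 x) (sq_nonneg _)).trans
      (h A e (hA.trans hb) w)).trans ?_
  exact mul_le_mul (Finset.prod_le_prod (fun j _ => hM0 j) fun j _ => hM j)
    (pow_le_pow_left₀ hG0 hG e) (pow_nonneg hG0 e)
    (Finset.prod_nonneg fun j _ => (hM0 j).trans (hM j))

variable (p : ι → Prop) [DecidablePred p]

/-- extension of a point -/
def xt (x0 : ∀ i, V i) (y : ∀ i : {i // p i}, V i) (i : ι) : V i :=
  if h : p i then y ⟨i, h⟩ else x0 i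

omit [Fintype ι] [DecidableEq ι] [∀ i, Fintype (V i)] [∀ i, DecidableEq (V i)] in
theorem rsub_xt (x0 : ∀ i, V i) (y : ∀ i : {i // p i}, V i) : rsub p (xt p x0 y) = y := by
  funext i
  simp [rsub, xt, i.2]

omit [∀ i, DecidableEq (V i)] in
/-- sums of functions of the coordinates with `p` -/
theorem sum_W_sub {lam : ∀ i, V i → ℝ} (h1 : ∀ i, ∑ a, lam i a = 1)
    (f : (∀ i : {i // p i}, V i) → ℝ) :
    ∑ x, W lam x * f (rsub p x) = ∑ y, W (lsub p lam) y * f y := by
  classical
  rw [← (Equiv.piEquivPiSubtypeProd p V).symm.sum_comp, Fintype.sum_prod_type]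
  refine Finset.sum_congr rfl fun y _ => ?_
  have h2 : ∀ z : ∀ i : {i // ¬ p i}, V i,
      W lam ((Equiv.piEquivPiSubtypeProd p V).symm (y, z)) =
        W (lsub p lam) y * ∏ i : {i // ¬ p i}, lam i (z i) := by
    intro z
    unfold W
    rw [← Fintype.prod_subtype_mul_prod_subtype p
      fun i => lam i ((Equiv.piEquivPiSubtypeProd p V).symm (y, z) i)]
    congr 1
    · refine Finset.prod_congr rfl fun i _ => ?_
      simp [lsub, Equiv.piEquivPiSubtypeProd, i.2]
    · refine Finset.prod_congr rfl fun i _ => ?_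
      simp [Equiv.piEquivPiSubtypeProd, i.2]
  have h3 : ∀ z : ∀ i : {i // ¬ p i}, V i,
      rsub p ((Equiv.piEquivPiSubtypeProd p V).symm (y, z)) = y := by
    intro z
    funext i
    simp [rsub, Equiv.piEquivPiSubtypeProd, i.2]
  have h4 : ∑ z : ∀ i : {i // ¬ p i}, V i, ∏ i : {i // ¬ p i}, lam i (z i) = 1 := by
    have h5 := (Finset.prod_univ_sum (fun i : {i // ¬ p i} => (univ : Finset (V i)))
      (fun i a => lam i a)).symm
    rw [Fintype.piFinset_univ] at h5
    rw [h5]
    exact Finset.prod_eq_one fun i _ => h1 i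
  have h6 : ∀ z : ∀ i : {i // ¬ p i}, V i,
      W lam ((Equiv.piEquivPiSubtypeProd p V).symm (y, z)) *
        f (rsub p ((Equiv.piEquivPiSubtypeProd p V).symm (y, z))) =
      (W (lsub p lam) y * f y) * ∏ i : {i // ¬ p i}, lam i (z i) := by
    intro z
    rw [h2, h3]
    ring
  rw [Finset.sum_congr rfl fun z _ => h6 z, ← Finset.mul_sum, h4, mul_one]

/-- the densities of the marginal law -/
theorem gr_sub {lam : ∀ i, V i → ℝ} {mu : (∀ i, V i) → ℝ} (C : Finset {i // p i})
    (x : ∀ i, V i) :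
    gr (lsub p lam) (msub p mu) C (rsub p x) =
      gr lam mu (C.map (Function.Embedding.subtype p)) x := by
  unfold gr
  rw [H858.marg_sub]
  congr 1
  unfold lw
  rw [Finset.prod_map]
  rfl

/-- the components of the marginal law -/
theorem hp_sub {lam : ∀ i, V i → ℝ} {mu : (∀ i, V i) → ℝ} (A U : Finset {i // p i})
    (x : ∀ i, V i) :
    hp (gr (lsub p lam) (msub p mu)) A U (rsub p x) =
      hp (gr lam mu) (A.map (Function.Embedding.subtype p))
        (U.map (Function.Embedding.subtype p)) x := by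
  unfold hp
  refine Finset.sum_bij' (fun C _ => C.map (Function.Embedding.subtype p))
    (fun C _ => C.subtype p) (fun C hC => ?_) (fun C hC => ?_) (fun C hC => ?_)
    (fun C hC => ?_) (fun C hC => ?_)
  · exact mem_powerset.2 (map_subset_map.2 (mem_powerset.1 hC))
  · rw [mem_powerset]
    intro i hi
    have h1 := mem_powerset.1 hC (mem_subtype.1 hi)
    obtain ⟨j, hj, hji⟩ := mem_map.1 h1
    rwa [← (Subtype.ext hji : j = i)]
  · ext i
    simp only [mem_subtype, mem_map, Function.Embedding.coe_subtype]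
    constructor
    · rintro ⟨j, hj, hji⟩
      rwa [← (Subtype.ext hji : j = i)]
    · exact fun hi => ⟨i, hi, rfl⟩
  · rw [subtype_map, filter_true_of_mem]
    intro i hi
    obtain ⟨j, -, rfl⟩ := mem_map.1 (mem_powerset.1 hC hi)
    exact j.2
  · rw [card_map, card_map, gr_sub, map_union]

/-- **The pinned form of Theorem H for the marginal law.** -/
theorem PH_sub {lam : ∀ i, V i → ℝ} {L : ℝ} (hR : Ref lam L) {mu : (∀ i, V i) → ℝ}
    {Hi : Finset ι} {M : ι → ℝ} {G : ℝ} {b0 : ℕ} (h : PH lam (gr lam mu) Hi M G b0) :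
    PH (V := fun i : {i // p i} => V i) (lsub p lam) (gr (lsub p lam) (msub p mu))
      (Hi.subtype p) (fun i => M i) G b0 := by
  classical
  have hx0 : ∀ i, ∃ _ : V i, True := fun i => by
    by_contra hc
    have h1 := hR.sum_one i
    rw [Finset.sum_eq_zero fun a _ => (hc ⟨a, trivial⟩).elim] at h1
    exact zero_ne_one h1
  set x0 : ∀ i, V i := fun i => (hx0 i).choose with hx0d
  intro A e hA w
  set A' := A.map (Function.Embedding.subtype p) with hA'
  have h1 := h A' e (by rwa [hA', card_map]) (xt p x0 w)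
  have h2 : ∏ j ∈ A', M j = ∏ j ∈ A, M (j : ι) := by
    rw [hA', Finset.prod_map]
    rfl
  rw [h2] at h1
  refine le_trans ?_ h1
  have h3 : ∀ U : Finset {i // p i},
      ∑ x, W (lsub p lam) x * hp (gr (lsub p lam) (msub p mu)) A U (A.piecewise w x) ^ 2 =
      ∑ x, W lam x * hp (gr lam mu) A' (U.map (Function.Embedding.subtype p))
        (A'.piecewise (xt p x0 w) x) ^ 2 := by
    intro U
    rw [← sum_W_sub p hR.sum_one]
    refine Finset.sum_congr rfl fun x _ => ?_
    rw [hA', ← hp_sub]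
    congr 3
    funext i
    simp only [rsub, Finset.piecewise]
    by_cases hi : i ∈ A
    · have h7 : (i : ι) ∈ map (Function.Embedding.subtype p) A :=
        mem_map_of_mem (Function.Embedding.subtype p) hi
      rw [if_pos hi, if_pos h7]
      simp [xt, i.2]
    · rw [if_neg hi, if_neg]
      intro hc
      obtain ⟨j, hj, hji⟩ := mem_map.1 hc
      exact hi (by rwa [← (Subtype.ext hji : j = i)])
  have h8 : ∑ U ∈ powersetCard e (Hi.subtype p \ A), ∑ x, W lam x *
        hp (gr lam mu) A' (U.map (Function.Embedding.subtype p))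
          (A'.piecewise (xt p x0 w) x) ^ 2 =
      ∑ U ∈ (powersetCard e (Hi.subtype p \ A)).map
        (Finset.mapEmbedding (Function.Embedding.subtype p)).toEmbedding,
        ∑ x, W lam x * hp (gr lam mu) A' U (A'.piecewise (xt p x0 w) x) ^ 2 := by
    rw [Finset.sum_map]
    rfl
  rw [Finset.sum_congr rfl fun U _ => h3 U, h8]
  refine Finset.sum_le_sum_of_subset_of_nonneg ?_ fun U _ _ => Finset.sum_nonneg fun x _ =>
    mul_nonneg (W_nonneg hR.nonneg x) (sq_nonneg _)
  intro U hU
  obtain ⟨U', hU', rfl⟩ := mem_map.1 hU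
  obtain ⟨hU1, hU2⟩ := mem_powersetCard.1 hU'
  rw [mem_powersetCard]
  refine ⟨fun i hi => ?_, ?_⟩
  · obtain ⟨j, hj, rfl⟩ := mem_map.1 hi
    have h4 := mem_sdiff.1 (hU1 hj)
    refine mem_sdiff.2 ⟨mem_subtype.1 h4.1, fun hc => h4.2 ?_⟩
    obtain ⟨k, hk, hkj⟩ := mem_map.1 hc
    rwa [← (Subtype.ext hkj : k = j)]
  · exact (card_map _).trans hU2

end

end Vale.Agent.P042.H276
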