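import Vale.Agent.P042.H365.Marg
import Vale.Agent.P042.H422.RefC

/-!
# P042: two references of a marginal law
-/

set_option autoImplicit false

namespace Vale.Agent.P042.H276

open Finset Vale.Agent.P042.H461 Vale.Agent.P042.H416 Vale.Agent.P042.H742 Vale.Agent.P042.H365
open Vale.Agent.P042.H422 (RefPair)

variable {ι : Type*} [Fintype ι] [DecidableEq ι] {V : ι → Type*} [∀ i, Fintype (V i)]
  [∀ i, DecidableEq (V i)] (p : ι → Prop) [DecidablePred p]

/-- two references of the marginal law -/
theorem RefPair_sub {lam lam2 : ∀ i, V i → ℝ} {mu : (∀ i, V i) → ℝ} {rr : ι → ℝ}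
    (P : RefPair lam lam2 mu rr) :
    RefPair (V := fun i : {i // p i} => V i) (lsub p lam) (lsub p lam2) (msub p mu)
      (fun i => rr i) where
  n1 i a := P.n1 i a
  s1 i := P.s1 i
  n2 i a := P.n2 i a
  s2 i := P.s2 i
  rr1 i := P.rr1 i
  le i a := P.le i a
  ac i a h := by rw [m1_sub]; exact P.ac i a h
  m0 y := Finset.sum_nonneg fun x _ => P.m0 x
  m1' := by rw [msub_sum]; exact P.m1'

end Vale.Agent.P042.H276
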