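import Vale.Agent.P042.H276.RwRef
import Vale.Agent.P042.H276.RefSub
import Vale.Agent.P042.H276.PhSub
import Vale.Agent.P042.H564.OoAsm
import Vale.Agent.P042.H92.PLocal

/-!
# P042, F.INF3: `PLaw` and Theorem H give the rows with a super-modulus (564's `RwOK`)

`C1` = exponent of the sites, `hx C1` = the exponent `h`; the row constants depend on
`X = (1 + ℓ none) * (b * ell j)`.
-/

set_option autoImplicit false

namespace Vale.Agent.P042.H276

open Finset Vale.Agent.P042.H232 Vale.Agent.P042.H461 Vale.Agent.P042.H416 Vale.Agent.P042.H742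
open Vale.Agent.P042.H365 (BHyp rate lsub msub)
open Vale.Agent.P042.H564.Oo (RwO el po RwOK)
open Vale.Agent.P042.H422 (RefPair)
open Vale.Agent.P042.H92 (Prm PLaw Scl LF)
open Vale.Agent.P042.H161 (PH)
open Vale.Agent.P042.H284 (eo eo_none eo_some)
open Vale.Agent.P042.H779 (m1)

section num

/-- the order index -/
noncomputable def mo (b : ℕ) (y : ℝ) : ℕ := max (b + 1) ⌊y⌋₊

/-- `X` -/
noncomputable def Xo (b : ℕ) (y x : ℝ) : ℝ := (1 + y) * (b * x)

theorem mo_ge (b : ℕ) (y : ℝ) : b + 1 ≤ mo b y := le_max_left _ _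

theorem mo_le {b : ℕ} (hb : 1 ≤ b) {y : ℝ} (hy : 0 ≤ y) : (mo b y : ℝ) ≤ 2 * ((1 + y) * b) := by
  have hb1 : (1 : ℝ) ≤ b := by exact_mod_cast hb
  unfold mo
  rw [Nat.cast_max, max_le_iff]
  constructor
  · push_cast
    nlinarith [mul_nonneg hy (by linarith : (0 : ℝ) ≤ b)]
  · have h1 := Nat.floor_le hy
    nlinarith [mul_nonneg hy (by linarith : (0 : ℝ) ≤ b)]

theorem log_two_half : (1 : ℝ) / 2 ≤ Real.log 2 := by
  have := Real.log_two_gt_d9
  linarith

/-- the constants in terms of `X` -/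
theorem mn_le {b n : ℕ} (hb : 1 ≤ b) {y x : ℝ} (hy : 0 ≤ y) (hx : x = n * Real.log 2) :
    (mo b y : ℝ) * n ≤ 4 * Xo b y x := by
  have hb1 : (1 : ℝ) ≤ b := by exact_mod_cast hb
  have hn : (n : ℝ) ≤ 2 * x := by
    rw [hx]
    have := log_two_half
    nlinarith [Nat.cast_nonneg (α := ℝ) n]
  calc (mo b y : ℝ) * n ≤ (2 * ((1 + y) * b)) * (2 * x) :=
        mul_le_mul (mo_le hb hy) hn (Nat.cast_nonneg n) (by positivity)
    _ = 4 * Xo b y x := by unfold Xo; ring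

theorem Xo_ge {b : ℕ} (hb : 1 ≤ b) {y x : ℝ} (hy : 0 ≤ y) (hx : 0 ≤ x) : x ≤ Xo b y x := by
  have hb1 : (1 : ℝ) ≤ b := by exact_mod_cast hb
  unfold Xo
  have h1 : x ≤ b * x := le_mul_of_one_le_left hx hb1
  have h2 : (b : ℝ) * x ≤ (1 + y) * (b * x) :=
    le_mul_of_one_le_left (by positivity) (by linarith)
  linarith

theorem b_le_Xo {b : ℕ} {y x : ℝ} (hy : 0 ≤ y) (hx : 1 ≤ x) : (b : ℝ) ≤ Xo b y x := by
  unfold Xo
  have h1 : (b : ℝ) ≤ b * x := le_mul_of_one_le_right (Nat.cast_nonneg b) hx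
  have h2 : (b : ℝ) * x ≤ (1 + y) * (b * x) :=
    le_mul_of_one_le_left (by positivity) (by linarith)
  linarith

end num

/-- the exponent `ε` of the mixed rates -/
noncomputable def epx (C1 : ℝ) : ℝ := 1 / (24 * C1) / (12 * (C1 + 1))

/-- the condition on the first scale -/
structure K0Ok (C1 : ℝ) (CK : ℕ) (a0 : ℝ) (K0 : ℕ) : Prop where
  one : 16 + 4 * a0 ≤ epx C1 / 32 * (K0 * Real.log 2)
  two : 2 + 4 / (epx C1 / 32) ≤ K0
  three : 2000 * 4 ^ CK ≤ (K0 * Real.log 2) ^ 5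
  four : 13000 * Real.exp (2 * a0) ≤ K0 * Real.log 2

theorem exists_K0Ok {C1 : ℝ} (hC1 : 1 ≤ C1) (CK : ℕ) (a0 : ℝ) :
    ∃ K1 : ℕ, ∀ K0 : ℕ, K1 ≤ K0 → K0Ok C1 CK a0 K0 := by
  have he : 0 < epx C1 := by
    unfold epx
    have : 0 < C1 := by linarith
    positivity
  set B : ℝ := (|16 + 4 * a0|) / (epx C1 / 32) + (2 + 4 / (epx C1 / 32)) + (2000 * 4 ^ CK) +
    13000 * Real.exp (2 * a0) + 1 with hB
  have h0 : 0 ≤ (|16 + 4 * a0|) / (epx C1 / 32) := by positivity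
  have h1 : 0 ≤ 4 / (epx C1 / 32) := by positivity
  have h2 : (0 : ℝ) ≤ 2000 * 4 ^ CK := by positivity
  have h3 : 0 ≤ 13000 * Real.exp (2 * a0) := by positivity
  refine ⟨⌈2 * B⌉₊, fun K0 hK => ?_⟩
  have hK' : 2 * B ≤ K0 := (Nat.le_ceil _).trans (by exact_mod_cast hK)
  have hl := log_two_half
  have hx : B ≤ K0 * Real.log 2 := by
    have h4 : (K0 : ℝ) * (1 / 2) ≤ K0 * Real.log 2 :=
      mul_le_mul_of_nonneg_left hl (Nat.cast_nonneg _)
    linarith
  refine ⟨?_, by linarith, ?_, by linarith⟩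
  · have h5 : (|16 + 4 * a0|) / (epx C1 / 32) ≤ K0 * Real.log 2 := by linarith
    rw [div_le_iff₀ (by positivity)] at h5
    linarith [le_abs_self (16 + 4 * a0)]
  · have h6 : (1 : ℝ) ≤ K0 * Real.log 2 := by linarith
    calc (2000 * 4 ^ CK : ℝ) ≤ K0 * Real.log 2 := by linarith
      _ = (K0 * Real.log 2) ^ 1 := (pow_one _).symm
      _ ≤ (K0 * Real.log 2) ^ 5 := pow_le_pow_right₀ h6 (by norm_num)

section geo

theorem geo_sum {J : Type*} [Fintype J] {sn : J → ℕ} (hinj : Function.Injective sn) {h : ℝ}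
    (hh : 0 < h) : ∑ j, Real.exp (-(h * (sn j * Real.log 2))) ≤ 1 + 2 / h := by
  classical
  have hl := log_two_half
  set q : ℝ := Real.exp (-(h * Real.log 2)) with hq
  have hq0 : 0 < q := Real.exp_pos _
  have hx0 : 0 < h * Real.log 2 := by positivity
  have hq1 : q < 1 := by
    rw [hq, Real.exp_lt_one_iff]
    linarith
  have h1 : ∀ j, Real.exp (-(h * (sn j * Real.log 2))) = q ^ sn j := by
    intro j
    rw [hq, ← Real.exp_nat_mul]
    congr 1
    ring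
  rw [Finset.sum_congr rfl fun j _ => h1 j]
  have h2 : ∑ j, q ^ sn j = ∑ n ∈ univ.image sn, q ^ n := by
    rw [Finset.sum_image fun a _ b _ hab => hinj hab]
  rw [h2]
  have h3 : Summable fun n : ℕ => q ^ n := summable_geometric_of_lt_one hq0.le hq1
  have h4 := h3.sum_le_tsum (univ.image sn) fun n _ => pow_nonneg hq0.le n
  rw [tsum_geometric_of_lt_one hq0.le hq1] at h4
  refine h4.trans ?_
  have h5 : h * Real.log 2 / (1 + h * Real.log 2) ≤ 1 - q := by
    have h6 : q ≤ 1 / (1 + h * Real.log 2) := by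
      rw [hq, Real.exp_neg, ← one_div]
      exact one_div_le_one_div_of_le (by linarith) (by linarith [Real.add_one_le_exp (h * Real.log 2)])
    have h7 : h * Real.log 2 / (1 + h * Real.log 2) = 1 - 1 / (1 + h * Real.log 2) := by
      field_simp
      ring
    rw [h7]
    linarith
  have h8 : (1 - q)⁻¹ ≤ (h * Real.log 2 / (1 + h * Real.log 2))⁻¹ :=
    inv_anti₀ (by positivity) h5
  refine h8.trans ?_
  rw [inv_div, add_div, div_self hx0.ne', add_comm]
  have h9 : 1 / (h * Real.log 2) ≤ 2 / h := by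
    rw [div_le_div_iff₀ hx0 hh]
    nlinarith
  linarith

end geo

section sig

/-- the numbers of `σ` -/
theorem sig_num {C1 a0 σ : ℝ} {CK b n K0 : ℕ} {y x : ℝ} (hK : K0Ok C1 CK a0 K0) (ha0 : 0 ≤ a0)
    (hb : 1 ≤ b) (hy : 0 ≤ y) (hx : x = n * Real.log 2) (hKn : K0 ≤ n) (hσ0 : 0 < σ)
    (hσ : σ ≤ (Xo b y x ^ (CK + 9))⁻¹) :
    1000 * ((mo b y : ℝ) * n) ^ CK * (2 * σ) * (b : ℝ) ^ 4 ≤ 1 ∧
    48 * 13448 * (b : ℝ) ^ 3 * LF (mo b y) n * Real.exp (2 * a0) * σ ≤ 1 ∧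
    4608 * 4 * 1681 ^ 2 * Real.exp (6 * a0) * (b : ℝ) ^ 4 * σ ≤ 1 := by
  have hl := log_two_half
  have hb1 : (1 : ℝ) ≤ b := by exact_mod_cast hb
  set x0 : ℝ := K0 * Real.log 2 with hx0
  have hxx : x0 ≤ x := by
    rw [hx, hx0]
    have : (K0 : ℝ) ≤ n := by exact_mod_cast hKn
    exact mul_le_mul_of_nonneg_right this (by linarith)
  have he1 : 1 ≤ Real.exp (2 * a0) := Real.one_le_exp (by linarith)
  have hx1 : 1 ≤ x0 := by have := hK.four; linarith
  set X := Xo b y x with hX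
  have hXx : x ≤ X := Xo_ge hb hy (by linarith)
  have hbX : (b : ℝ) ≤ X := b_le_Xo hy (by linarith)
  have hX1 : 1 ≤ X := by linarith
  have hX0 : 0 < X := by linarith
  have hmn : (mo b y : ℝ) * n ≤ 4 * X := mn_le hb hy hx
  have hmn0 : 0 ≤ (mo b y : ℝ) * n := by positivity
  have hpow : (X ^ (CK + 9))⁻¹ = (X ^ CK)⁻¹ * (X ^ 9)⁻¹ := by
    rw [pow_add, mul_inv]
  have hσX : σ * X ^ CK * X ^ 9 ≤ 1 := by
    calc σ * X ^ CK * X ^ 9 ≤ (X ^ (CK + 9))⁻¹ * X ^ CK * X ^ 9 := by gcongr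
      _ = 1 := by
        rw [hpow]
        field_simp
  have hXCK : 1 ≤ X ^ CK := one_le_pow₀ hX1
  have hσ9 : σ * X ^ 9 ≤ 1 := by
    refine le_trans ?_ hσX
    have : 0 ≤ σ * X ^ 9 := by positivity
    nlinarith
  have hx05 : x0 ^ 5 ≤ X ^ 5 := pow_le_pow_left₀ (by linarith) (by linarith) 5
  refine ⟨?_, ?_, ?_⟩
  · have h1 : ((mo b y : ℝ) * n) ^ CK ≤ 4 ^ CK * X ^ CK := by
      rw [← mul_pow]
      exact pow_le_pow_left₀ hmn0 hmn CK
    have h2 : (b : ℝ) ^ 4 ≤ X ^ 4 := pow_le_pow_left₀ (by linarith) hbX 4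
    have h3 : (2000 * 4 ^ CK : ℝ) ≤ X ^ 5 := hK.three.trans hx05
    calc 1000 * ((mo b y : ℝ) * n) ^ CK * (2 * σ) * (b : ℝ) ^ 4
        ≤ 1000 * (4 ^ CK * X ^ CK) * (2 * σ) * X ^ 4 := by gcongr
      _ = (2000 * 4 ^ CK) * (σ * X ^ CK * X ^ 4) := by ring
      _ ≤ X ^ 5 * (σ * X ^ CK * X ^ 4) := mul_le_mul_of_nonneg_right h3 (by positivity)
      _ = σ * X ^ CK * X ^ 9 := by ring
      _ ≤ 1 := hσX
  · have h1 : LF (mo b y) n ≤ 256 * X ^ 4 := by
      unfold LF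
      calc ((mo b y : ℝ) * n) ^ 4 ≤ (4 * X) ^ 4 := pow_le_pow_left₀ hmn0 hmn 4
        _ = 256 * X ^ 4 := by ring
    have h1' : 0 ≤ LF (mo b y) n := by unfold LF; positivity
    have h2 : (b : ℝ) ^ 3 ≤ X ^ 3 := pow_le_pow_left₀ (by linarith) hbX 3
    have h3 : 13000 * Real.exp (2 * a0) ≤ X := by linarith [hK.four]
    have h4 : 48 * 13448 * 256 * Real.exp (2 * a0) ≤ X ^ 2 := by
      calc 48 * 13448 * 256 * Real.exp (2 * a0)
          ≤ (13000 * Real.exp (2 * a0)) ^ 2 := by nlinarith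
        _ ≤ X ^ 2 := pow_le_pow_left₀ (by positivity) h3 2
    calc 48 * 13448 * (b : ℝ) ^ 3 * LF (mo b y) n * Real.exp (2 * a0) * σ
        ≤ 48 * 13448 * X ^ 3 * (256 * X ^ 4) * Real.exp (2 * a0) * σ := by gcongr
      _ = (48 * 13448 * 256 * Real.exp (2 * a0)) * (σ * X ^ 7) := by ring
      _ ≤ X ^ 2 * (σ * X ^ 7) := mul_le_mul_of_nonneg_right h4 (by positivity)
      _ = σ * X ^ 9 := by ring
      _ ≤ 1 := hσ9
  · have h2 : (b : ℝ) ^ 4 ≤ X ^ 4 := pow_le_pow_left₀ (by linarith) hbX 4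
    have h3 : 13000 * Real.exp (2 * a0) ≤ X := by linarith [hK.four]
    have h4 : 4608 * 4 * 1681 ^ 2 * Real.exp (6 * a0) ≤ X ^ 5 := by
      have h5 : (13000 * Real.exp (2 * a0)) ^ 5 ≤ X ^ 5 := pow_le_pow_left₀ (by positivity) h3 5
      refine le_trans ?_ h5
      have h6 : Real.exp (6 * a0) = Real.exp (2 * a0) ^ 3 := by
        rw [← Real.exp_nat_mul]
        congr 1
        push_cast
        ring
      rw [h6, mul_pow]
      have h7 : Real.exp (2 * a0) ^ 3 ≤ Real.exp (2 * a0) ^ 5 :=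
        pow_le_pow_right₀ he1 (by norm_num)
      have h8 : 0 ≤ Real.exp (2 * a0) ^ 3 := by positivity
      nlinarith
    calc 4608 * 4 * 1681 ^ 2 * Real.exp (6 * a0) * (b : ℝ) ^ 4 * σ
        ≤ X ^ 5 * X ^ 4 * σ := by gcongr
      _ = σ * X ^ 9 := by ring
      _ ≤ 1 := hσ9

end sig

section osite

theorem sq41 (a0 y : ℝ) : (41 * Real.exp a0) ^ 2 * Real.exp y = 1681 * Real.exp (2 * a0 + y) := by
  rw [mul_pow, ← Real.exp_nat_mul, mul_assoc, ← Real.exp_add]
  push_cast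
  norm_num

theorem sq41_le (a0 y : ℝ) : (41 * Real.exp a0) ^ 2 * Real.exp y ≤ Real.exp (8 + 2 * a0 + y) := by
  have h41 : (41 : ℝ) ≤ Real.exp 4 := by
    have h6 := Real.exp_one_gt_d9
    have h7 : Real.exp 4 = Real.exp 1 ^ 4 := by
      rw [← Real.exp_nat_mul]; norm_num
    rw [h7]
    calc (41 : ℝ) ≤ 2.7 ^ 4 := by norm_num
      _ ≤ Real.exp 1 ^ 4 := pow_le_pow_left₀ (by norm_num) (by linarith) 4
  calc (41 * Real.exp a0) ^ 2 * Real.exp y
      ≤ (Real.exp 4 * Real.exp a0) ^ 2 * Real.exp y := by gcongr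
    _ = Real.exp (8 + 2 * a0 + y) := by
      rw [← Real.exp_add, ← Real.exp_nat_mul, ← Real.exp_add]
      congr 1
      push_cast
      ring

/-- the number `q` of the extra site -/
noncomputable def qo (a0 γ y F : ℝ) : ℝ := Real.exp (-(2 * a0 + 2 * γ * y)) / (13448 * F)

theorem qo_pos {a0 γ y F : ℝ} (hF : 0 < F) : 0 < qo a0 γ y F := by
  unfold qo
  positivity

theorem o_q1 {a0 γ y F t M : ℝ} (h0 : 0 ≤ a0 + γ * y) (hF : 1 ≤ F) (hM1 : 1 ≤ M)
    (hM : M ≤ Real.exp (a0 + γ * y)) (ht : 1 / (704 * F) ≤ t) : qo a0 γ y F ≤ t / M := by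
  have hF0 : 0 < F := by linarith
  rw [le_div_iff₀ (by linarith)]
  refine le_trans ?_ ht
  calc qo a0 γ y F * M ≤ qo a0 γ y F * Real.exp (a0 + γ * y) :=
        mul_le_mul_of_nonneg_left hM (qo_pos hF0).le
    _ = (Real.exp (-(2 * a0 + 2 * γ * y)) * Real.exp (a0 + γ * y)) / (13448 * F) := by
        unfold qo; ring
    _ = Real.exp (-(a0 + γ * y)) / (13448 * F) := by
        rw [← Real.exp_add]; congr 2; ring
    _ ≤ 1 / (704 * F) := by
        apply div_le_div₀ zero_le_one _ (by positivity)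
        · nlinarith
        · rw [Real.exp_le_one_iff]; linarith

theorem o_q2 {a0 γ y F Mp : ℝ} (hF : 1 ≤ F)
    (hMp : Mp ≤ (41 * Real.exp a0) ^ 2 * Real.exp (2 * γ * y)) :
    8 * Mp * qo a0 γ y F ≤ 1 := by
  have hF0 : 0 < F := by linarith
  rw [sq41] at hMp
  have hq := (qo_pos (a0 := a0) (γ := γ) (y := y) hF0).le
  calc 8 * Mp * qo a0 γ y F ≤ 8 * (1681 * Real.exp (2 * a0 + 2 * γ * y)) * qo a0 γ y F :=
        mul_le_mul_of_nonneg_right (by linarith) hq
    _ = (Real.exp (2 * a0 + 2 * γ * y) * Real.exp (-(2 * a0 + 2 * γ * y))) / F := by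
        unfold qo
        field_simp
        norm_num
    _ = 1 / F := by
        rw [← Real.exp_add]
        simp
    _ ≤ 1 := div_le_one_of_le₀ hF hF0.le

theorem o_Rq {a0 γ y F σ rho : ℝ} {b : ℕ} (hF : 1 ≤ F) (hσ : 0 < σ)
    (hs : 48 * 13448 * (b : ℝ) ^ 3 * F * Real.exp (2 * a0) * σ ≤ 1)
    (hrho : rho ≤ Real.exp (-y)) (hγ : 2 * γ * y ≤ y) :
    24 * (b : ℝ) ^ 3 * (1 * (2 * (σ * rho))) ≤ qo a0 γ y F := by
  have hF0 : 0 < F := by linarith
  unfold qo
  rw [le_div_iff₀ (by positivity)]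
  calc 24 * (b : ℝ) ^ 3 * (1 * (2 * (σ * rho))) * (13448 * F)
      ≤ 24 * (b : ℝ) ^ 3 * (1 * (2 * (σ * Real.exp (-y)))) * (13448 * F) := by gcongr
    _ = (48 * 13448 * (b : ℝ) ^ 3 * F * Real.exp (2 * a0) * σ) *
        (Real.exp (-(2 * a0)) * Real.exp (-y)) := by
        rw [Real.exp_neg (2 * a0)]
        field_simp
        ring
    _ ≤ 1 * (Real.exp (-(2 * a0)) * Real.exp (-y)) :=
        mul_le_mul_of_nonneg_right hs (by positivity)
    _ ≤ Real.exp (-(2 * a0 + 2 * γ * y)) := by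
        rw [one_mul, ← Real.exp_add]
        apply Real.exp_le_exp.2
        linarith

theorem o_RK {a0 γ y σ rho e M Mp : ℝ} {b : ℕ} (hσ : 0 < σ) (hM1 : 1 ≤ M) (hMp1 : 1 ≤ Mp)
    (hM : M ≤ Real.exp (a0 + γ * y)) (hMp : Mp ≤ (41 * Real.exp a0) ^ 2 * Real.exp (2 * γ * y))
    (hs : 4608 * 4 * 1681 ^ 2 * Real.exp (6 * a0) * (b : ℝ) ^ 4 * σ ≤ 1)
    (hrho0 : 0 ≤ rho) (he0 : 0 ≤ e)
    (hrho : rho ≤ Real.exp (-y)) (he : e ≤ Real.exp (-y)) (hγ : 6 * γ * y ≤ y) :
    4608 * (b : ℝ) ^ 4 * (1 * (M * Mp)) ^ 2 * (1 * (2 * (σ * rho) + 2 * (σ * e))) ≤ 1 := by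
  rw [sq41] at hMp
  have h7 : M * Mp ≤ 1681 * Real.exp (3 * a0 + 3 * γ * y) := by
    calc _ ≤ Real.exp (a0 + γ * y) * (1681 * Real.exp (2 * a0 + 2 * γ * y)) :=
          mul_le_mul hM hMp (by linarith) (Real.exp_pos _).le
      _ = 1681 * (Real.exp (a0 + γ * y) * Real.exp (2 * a0 + 2 * γ * y)) := by
          ring
      _ = _ := by
          rw [← Real.exp_add]
          congr 2
          ring
  have h8 : (1 * (M * Mp)) ^ 2 ≤ 1681 ^ 2 * (Real.exp (6 * a0) * Real.exp (6 * γ * y)) := by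
    rw [one_mul]
    calc _ ≤ (1681 * Real.exp (3 * a0 + 3 * γ * y)) ^ 2 :=
          pow_le_pow_left₀ (by positivity) h7 2
      _ = _ := by
          rw [mul_pow, ← Real.exp_nat_mul, ← Real.exp_add]
          congr 2
          push_cast
          ring
  have h9 : 2 * (σ * rho) + 2 * (σ * e) ≤ 4 * σ * Real.exp (-y) := by
    have h10 := mul_le_mul_of_nonneg_left hrho hσ.le
    have h11 := mul_le_mul_of_nonneg_left he hσ.le
    linarith
  have h12 : 0 ≤ 2 * (σ * rho) + 2 * (σ * e) := by positivity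
  calc 4608 * (b : ℝ) ^ 4 * (1 * (M * Mp)) ^ 2 * (1 * (2 * (σ * rho) + 2 * (σ * e)))
      ≤ 4608 * (b : ℝ) ^ 4 * (1681 ^ 2 * (Real.exp (6 * a0) *
        Real.exp (6 * γ * y))) * (1 * (4 * σ * Real.exp (-y))) := by gcongr
    _ = (4608 * 4 * 1681 ^ 2 * Real.exp (6 * a0) * (b : ℝ) ^ 4 * σ) *
        (Real.exp (6 * γ * y) * Real.exp (-y)) := by ring
    _ ≤ 1 * 1 := by
        refine mul_le_mul hs ?_ (by positivity) zero_le_one
        rw [← Real.exp_add, Real.exp_le_one_iff]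
        linarith
    _ = 1 := one_mul 1

end osite

/-- the ratio of the two references -/
noncomputable def rrO {ι : Type*} (γ : ℝ) (ℓ : Option ι → ℝ) : Option ι → ℝ
  | none => 1
  | some i => Real.exp (γ * ℓ (some i))

section law

variable {J : Type*} [Fintype J] [DecidableEq J] {ι : Type*} [Fintype ι] [DecidableEq ι]
  {V : Option ι → Type*} [∀ i, Fintype (V i)] [∀ i, DecidableEq (V i)] {Q : Prm} {K0 : ℕ}
  {ℓ es : Option ι → ℝ} {sc : ι → J} {sn : J → ℕ} {ell : J → ℝ} {lam lam2 u : ∀ i, V i → ℝ}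
  {mu : (∀ i, V i) → ℝ}

omit [Fintype J] [DecidableEq J] [DecidableEq ι] in
theorem ell_ge (S : Scl Q K0 univ (fun i => ℓ (some i)) (fun i => es (some i)) sc sn ell)
    (j : J) : K0 * Real.log 2 ≤ ell j := by
  rw [S.ell1 j]
  have h1 : (K0 : ℝ) ≤ sn j := by exact_mod_cast S.K0 j
  exact mul_le_mul_of_nonneg_right h1 (by linarith [log_two_half])

omit [Fintype J] [DecidableEq J] [DecidableEq ι] in
theorem l_nonneg (S : Scl Q K0 univ (fun i => ℓ (some i)) (fun i => es (some i)) sc sn ell)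
    (hK : 1 ≤ K0) (i : ι) : 0 ≤ ℓ (some i) := by
  have h1 := S.lo i (Finset.mem_univ i)
  have h2 := S.es1 i (Finset.mem_univ i)
  have h3 := ell_ge S (sc i)
  have h4 : (1 : ℝ) ≤ K0 := by exact_mod_cast hK
  have h5 := log_two_half
  nlinarith

omit [Fintype J] [DecidableEq J] in
/-- the two references of `PPair` -/
theorem refPair_of (hγ0 : 0 ≤ Q.γ) (hK : 1 ≤ K0)
    (S : Scl Q K0 univ (fun i => ℓ (some i)) (fun i => es (some i)) sc sn ell)
    (P : PLaw Q (univ.erase none) ℓ es lam u mu) (h2 : ∀ i, lam2 i = lam i ∨ lam2 i = u i) :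
    RefPair lam lam2 mu (rrO Q.γ ℓ) where
  n1 := P.ref.w_nonneg
  s1 := P.ref.w_sum
  n2 i a := by
    rcases h2 i with h | h
    · rw [h]; exact P.ref.w_nonneg i a
    · rw [h, P.u1]; positivity
  s2 i := by
    rcases h2 i with h | h
    · rw [h]; exact P.ref.w_sum i
    · rw [h]; exact P.usum i
  rr1 i := by
    cases i with
    | none => exact le_rfl
    | some i => exact Real.one_le_exp (mul_nonneg hγ0 (l_nonneg S hK i))
  le i a := by
    cases i with
    | none =>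
      have h3 : lam2 none = lam none := by
        rcases h2 none with h | h
        · exact h
        · rw [h]; exact (P.out none (by simp)).symm
      rw [h3]
      show lam none a ≤ 1 * lam none a
      rw [one_mul]
    | some i =>
      rcases h2 (some i) with h | h
      · rw [h]
        exact le_mul_of_one_le_left (P.ref.w_nonneg _ _)
          (Real.one_le_exp (mul_nonneg hγ0 (l_nonneg S hK i)))
      · rw [h]; exact P.up _ a
  ac := P.ref.ac
  m0 := P.ref.prob.nonneg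
  m1' := P.ref.prob.sum_eq

/-- the atoms of the second reference -/
theorem ref2_of (hγ0 : 0 ≤ Q.γ) (P : PLaw Q (univ.erase none) ℓ es lam u mu)
    (h2 : ∀ i, lam2 i = lam i ∨ lam2 i = u i) :
    Ref lam2 (∑ i, (1 + Q.γ) * |ℓ i|) := by
  have hle : ∀ i, (1 + Q.γ) * ℓ i ≤ ∑ i, (1 + Q.γ) * |ℓ i| := fun i =>
    (mul_le_mul_of_nonneg_left (le_abs_self _) (by linarith)).trans
      (Finset.single_le_sum (f := fun i => (1 + Q.γ) * |ℓ i|)
        (fun i _ => by positivity) (Finset.mem_univ i))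
  have hle' : ∀ i, ℓ i ≤ ∑ i, (1 + Q.γ) * |ℓ i| := fun i => by
    refine (le_abs_self (ℓ i)).trans (le_trans ?_ (Finset.single_le_sum
      (f := fun i => (1 + Q.γ) * |ℓ i|) (fun i _ => by positivity) (Finset.mem_univ i)))
    exact le_mul_of_one_le_left (abs_nonneg _) (by linarith)
  refine ⟨fun i a => ?_, fun i => ?_, fun i a => ?_⟩
  · rcases h2 i with h | h
    · rw [h]; exact P.ref.w_nonneg i a
    · rw [h, P.u1]; positivity
  · rcases h2 i with h | h
    · rw [h]; exact P.ref.w_sum i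
    · rw [h]; exact P.usum i
  · rcases h2 i with h | h
    · rw [h]
      rcases P.lo i a with h3 | h3
      · exact Or.inl h3
      · right
        refine le_trans ?_ h3
        rw [P.u1, ← Real.exp_add]
        apply Real.exp_le_exp.2
        have := hle i
        linarith
    · right
      rw [h, P.u1]
      exact Real.exp_le_exp.2 (by linarith [hle' i])

/-- **Rows with a super-modulus from `PLaw` and Theorem H (all top scales).** -/
theorem rwo_high_plaw {rho e : Option ι → ℝ} {g c1 : ℝ} {b b0 : ℕ} {j : J}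
    [DecidablePred (po sc ell j)] {σ Gc : ℝ} {Mp : Option ι → ℝ}
    {t M : {i // po sc ell j i} → ℝ} {L Λ ε' κ' δ : ℝ}
    (hC1 : 1 ≤ Q.C1) (hp : 1 ≤ Q.p) (hG0 : 0 ≤ Q.G) (hG : Q.G ≤ epx Q.C1 / 8)
    (hγ0 : 0 ≤ Q.γ) (hγ : Q.γ ≤ epx Q.C1 / 128) (hcg : c1 + g ≤ epx Q.C1 / 8)
    (ha0 : 0 ≤ Q.a0) (hCK : 1 ≤ Q.CK) (hK : K0Ok Q.C1 Q.CK Q.a0 K0)
    (S : Scl Q K0 univ (fun i => ℓ (some i)) (fun i => es (some i)) sc sn ell)
    (P : PLaw Q (univ.erase none) ℓ es lam u mu) (h2 : ∀ i, lam2 i = lam i ∨ lam2 i = u i)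
    (hlo : 0 ≤ ℓ none) (hb : 1 ≤ b) (hb0 : b + 1 ≤ b0)
    (hrho0 : ∀ i, 0 ≤ rho i) (he0 : ∀ i, 0 ≤ e i)
    (rho1 : ∀ i, rho (some i) ≤ Real.exp (-(1 / 2) * es (some i) + Q.γ * es (some i)))
    (e1 : ∀ i, e (some i) ≤ Real.exp (-es (some i) + Q.γ * es (some i)))
    (rhoo : rho none ≤ Real.exp (-ℓ none)) (eoo : e none ≤ Real.exp (-ℓ none))
    (hσ0 : 0 < σ) (hσ : σ ≤ (Xo b (ℓ none) (ell j) ^ (Q.CK + 9))⁻¹)
    (hB : BHyp (V := fun i : {i // po sc ell j i} => V i) (lsub (po sc ell j) lam)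
      (msub (po sc ell j) mu) t M L Λ ε' κ' δ (b + 1))
    (hM : ∀ i, M i ≤ Real.exp (Q.a0 + Q.γ * ℓ i.1))
    (ht : ∀ i (hi : po sc ell j (some i)), rate ((1 - Q.G) * Q.p) (es (some i)) /
      ((mo b (ℓ none) : ℝ) * sn j) ^ Q.CK ≤ t ⟨some i, hi⟩)
    (hto : ∀ h : po sc ell j none, 1 / (704 * LF (mo b (ℓ none)) (sn j)) ≤ t ⟨none, h⟩)
    (hMp1 : ∀ i, 1 ≤ Mp i)
    (hMp : ∀ i, Mp i ≤ (41 * Real.exp Q.a0) ^ 2 * Real.exp (2 * Q.γ * ℓ i))
    (hGc0 : 0 < Gc) (hGc : Gc ≤ Real.exp ((1 - 1 / (24 * Q.C1)) * Q.p))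
    (hH : PH lam (gr lam mu) (univ.filter fun i => i ≠ none ∧ Q.p ≤ es i) Mp Gc b0) :
    RwOK lam2 rho e mu sc ell g c1 b j σ := by
  classical
  have hl := log_two_half
  set n : ℕ := sn j with hn
  have hx : ell j = n * Real.log 2 := S.ell1 j
  have hKn : K0 ≤ n := S.K0 j
  have heps : 0 < epx Q.C1 := by
    unfold epx
    have : 0 < Q.C1 := by linarith
    positivity
  set h : ℝ := epx Q.C1 / 32 with hh
  have hh0 : 0 < h := by positivity
  have hγh : 4 * Q.γ ≤ h := by rw [hh]; linarith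
  have hK2 : (2 : ℝ) ≤ K0 := by
    have := hK.two
    have h3 : 0 ≤ 4 / (epx Q.C1 / 32) := by positivity
    linarith
  have hK1 : 1 ≤ K0 := by
    have : (1 : ℝ) ≤ K0 := by linarith
    exact_mod_cast this
  have hellg : ∀ j', K0 * Real.log 2 ≤ ell j' := ell_ge S
  have hell0 : ∀ j', 0 ≤ ell j' := fun j' => le_trans (by positivity) (hellg j')
  obtain ⟨hs1, hs2, hs3⟩ := sig_num (y := ℓ none) hK ha0 hb hlo hx hKn hσ0 hσ
  -- the exponents at an ordinary site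
  have hbase : ∀ x : ℝ, K0 * Real.log 2 ≤ x → 8 + 2 * Q.a0 ≤ h / 2 * x := by
    intro x hx'
    have h3 := hK.one
    rw [← hh] at h3
    have h4 : h * (K0 * Real.log 2) ≤ h * x := mul_le_mul_of_nonneg_left hx' hh0.le
    linarith
  have hes : ∀ i : ι, es (some i) = ell (sc i) := fun i => S.es1 i (Finset.mem_univ i)
  have hlup : ∀ i : ι, ℓ (some i) ≤ ell (sc i) := fun i => by
    have := S.up i (Finset.mem_univ i)
    rw [hes i] at this
    exact this
  have hl0 : ∀ i : ι, 0 ≤ ℓ (some i) := l_nonneg S hK1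
  have hγl : ∀ i : ι, Q.γ * ℓ (some i) ≤ h / 4 * ell (sc i) := fun i =>
    mul_le_mul (by linarith) (hlup i) (hl0 i) (by positivity)
  set sc' : {i // po sc ell j i} → Option J := fun i => Option.map sc i.1 with hsc'
  have hsome : ∀ (i : {i // po sc ell j i}) (j' : J), sc' i = some j' →
      ∃ (k : ι) (hk : po sc ell j (some k)), i = ⟨some k, hk⟩ ∧ sc k = j' := by
    rintro ⟨i, hi⟩ j' hj'
    cases i with
    | none => simp [hsc'] at hj'
    | some k => exact ⟨k, hi, rfl, by simpa [hsc'] using hj'⟩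
  have hnone : ∀ i : {i // po sc ell j i}, sc' i = none → i.1 = none := by
    rintro ⟨i, hi⟩ hi'
    cases i with
    | none => rfl
    | some k => simp [hsc'] at hi'
  have hmn1 : 1 ≤ (mo b (ℓ none) : ℝ) * n := by
    have h3 : (1 : ℝ) ≤ mo b (ℓ none) := by
      have := mo_ge b (ℓ none)
      exact_mod_cast (show 1 ≤ mo b (ℓ none) by omega)
    have h4 : (1 : ℝ) ≤ n := by exact_mod_cast hK1.trans hKn
    exact one_le_mul_of_one_le_of_one_le h3 h4
  have hKfge : (mo b (ℓ none) : ℝ) * n ≤ ((mo b (ℓ none) : ℝ) * n) ^ Q.CK := by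
    calc (mo b (ℓ none) : ℝ) * n = ((mo b (ℓ none) : ℝ) * n) ^ 1 := (pow_one _).symm
      _ ≤ _ := pow_le_pow_right₀ hmn1 hCK
  have hLF1 : 1 ≤ LF (mo b (ℓ none)) n := one_le_pow₀ hmn1
  have hn1 : (K0 : ℝ) ≤ n := by exact_mod_cast hKn
  have hx0 : 13000 * Real.exp (2 * Q.a0) ≤ K0 * Real.log 2 := hK.four
  have he1 : 1 ≤ Real.exp (2 * Q.a0) := Real.one_le_exp (by linarith)
  have hK128 : (128 : ℝ) ≤ K0 := by
    have h3 : Real.log 2 ≤ 1 := by have := Real.log_two_lt_d9; linarith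
    have h4 : (K0 : ℝ) * Real.log 2 ≤ K0 * 1 := mul_le_mul_of_nonneg_left h3 (Nat.cast_nonneg _)
    linarith
  have hmb : ((b : ℝ) + 1) ≤ mo b (ℓ none) := by
    have := mo_ge b (ℓ none)
    exact_mod_cast this
  have hLF0 : 0 < LF (mo b (ℓ none)) n := by linarith
  have hγ6 : 6 * Q.γ ≤ 1 := by
    have h3 : epx Q.C1 ≤ 1 := by
      unfold epx
      rw [div_le_one (by positivity), div_le_iff₀ (by positivity)]
      nlinarith
    linarith
  have hγlo : 6 * Q.γ * ℓ none ≤ ℓ none := by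
    have := mul_le_mul_of_nonneg_right hγ6 hlo
    linarith
  have hγlo0 : 0 ≤ Q.γ * ℓ none := mul_nonneg hγ0 hlo
  have hp0 : 0 < Q.p := by linarith
  have PR := RefPair_sub (po sc ell j) (refPair_of hγ0 hK1 S P h2)
  have hL2 := H858.Ref_sub (po sc ell j) (ref2_of hγ0 P h2)
  have hrP : ∀ i : {i // po sc ell j i}, rrO Q.γ ℓ (i : Option ι) = rrO Q.γ ℓ i.1 := fun i => rfl
  -- Theorem H at the marginal law
  have hR1 : Ref lam (∑ i, (1 + Q.γ) * |ℓ i|) := ref2_of hγ0 P fun i => Or.inl rfl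
  have hH' := PH_sub (po sc ell j) hR1 hH
  have hset : (univ.filter fun i : Option ι => i ≠ none ∧ Q.p ≤ es i).subtype (po sc ell j) =
      (LoO sc' ell Q.p)ᶜ := by
    ext ⟨i, hi⟩
    rw [Finset.mem_subtype, Finset.mem_compl, mem_LoO, Finset.mem_filter]
    cases i with
    | none => simp [hsc']
    | some k => simp [hsc', hes k]
  rw [hset] at hH'
  suffices hfin : ∃ r K θ, RwO (V := fun i : {i // po sc ell j i} => V i)
      (lsub (po sc ell j) lam2) (msub (po sc ell j) mu) sc' ell g c1 b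
      (fun i => 2 * (σ * rho i.1)) (fun i => 2 * (σ * e i.1)) r K θ
      (∑ i, (1 + Q.γ) * |ℓ i|) by
    obtain ⟨r, K, θ, hRw⟩ := hfin
    exact ⟨r, K, θ, _, hRw⟩
  refine rwO_ref' (lam := lsub (po sc ell j) lam)
    (lam2 := lsub (po sc ell j) lam2) (mu := msub (po sc ell j) mu)
    (rr := fun i => rrO Q.γ ℓ i.1) (sc := sc') (ell := ell) (g := g) (c1 := c1) (b := b)
    (b0 := b0) (R := fun i => 2 * (σ * rho i.1)) (E := fun i => 2 * (σ * e i.1))
    (t := t) (M := M) (Mp := fun i => Mp i.1) (p := Q.p) (G := Q.G) (h := h)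
    (Kf := ((mo b (ℓ none) : ℝ) * n) ^ Q.CK) (σ := 2 * σ) (Gc := Gc) (ε := epx Q.C1) (κ1 := 0)
    (cs := 1 / (24 * Q.C1)) (C1 := Q.C1 + 1)
    (q := qo Q.a0 Q.γ (ℓ none) (LF (mo b (ℓ none)) n)) PR hL2 hB (fun i => hMp1 i.1) hGc0 hH' hb0 hb
    ?uniq hp0 (by linarith) (by positivity) ?cs1 rfl hG0 hG hh0.le le_rfl ?hc (by positivity) ?kf ?gg
    (by positivity) hs1 (fun i => by have := hrho0 i.1; positivity)
    (fun i => by have := he0 i.1; positivity) ?card ?hJ ?hx ?ht ?hM ?hMp ?hrr ?hR ?hE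
    ?q0 ?q1 ?q2 ?Rq ?RK
  case uniq =>
    intro i i' hi hi'
    exact Subtype.ext ((hnone i hi).trans (hnone i' hi').symm)
  case cs1 =>
    rw [div_le_one (by positivity)]
    linarith
  case hc =>
    rw [hh]
    linarith
  case kf =>
    refine le_trans ?_ hKfge
    have h3 : ((b : ℝ) + 1) * 128 ≤ (mo b (ℓ none) : ℝ) * n :=
      mul_le_mul hmb (hK128.trans hn1) (by norm_num) (by positivity)
    have hb1 : (1 : ℝ) ≤ b := by exact_mod_cast hb
    linarith
  case gg =>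
    rw [add_zero]
    refine hGc.trans ?_
    have h3 : 1 ≤ 4 * ((mo b (ℓ none) : ℝ) * n) ^ Q.CK := by linarith
    exact le_mul_of_one_le_left (Real.exp_pos _).le h3
  case card =>
    intro j'
    have h3 : (univ.filter fun i : {i // po sc ell j i} => sc' i = some j').map
        (Function.Embedding.subtype _) ⊆
        (univ.filter fun k : ι => es (some k) = ell j').map Function.Embedding.some := by
      intro i hi
      obtain ⟨i', hi', rfl⟩ := Finset.mem_map.1 hi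
      obtain ⟨k, hk, rfl, hkj⟩ := hsome i' j' (Finset.mem_filter.1 hi').2
      exact Finset.mem_map.2 ⟨k, Finset.mem_filter.2 ⟨Finset.mem_univ k, by rw [hes k, hkj]⟩, rfl⟩
    have h4 := Finset.card_le_card h3
    rw [Finset.card_map, Finset.card_map] at h4
    have h5 := S.card (ell j')
    refine le_trans ?_ h5
    exact_mod_cast h4
  case hJ =>
    have h3 : ∑ j', Real.exp (-(h * ell j')) ≤ 1 + 2 / h := by
      have h4 : ∀ j', Real.exp (-(h * ell j')) = Real.exp (-(h * (sn j' * Real.log 2))) := fun j' => by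
        rw [S.ell1 j']
      rw [Finset.sum_congr rfl fun j' _ => h4 j']
      exact geo_sum S.inj hh0
    have h4 := hK.two
    rw [← hh] at h4
    have h5 : 2 / h = 4 / h / 2 := by ring
    have h6 : (K0 : ℝ) ≤ (mo b (ℓ none) : ℝ) * n := by
      have h7 : (1 : ℝ) ≤ mo b (ℓ none) := by
        have hb1 : (1 : ℝ) ≤ b := by exact_mod_cast hb
        linarith
      calc (K0 : ℝ) ≤ n := hn1
        _ ≤ (mo b (ℓ none) : ℝ) * n := le_mul_of_one_le_left (Nat.cast_nonneg _) h7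
    linarith
  case hx =>
    intro i j' hi
    refine ⟨hell0 j', (S.top j').trans ?_⟩
    nlinarith
  case ht =>
    intro i j' hi
    obtain ⟨k, hk, rfl, rfl⟩ := hsome i j' hi
    have := ht k hk
    rwa [hes k] at this
  case hM =>
    intro i j' hi
    obtain ⟨k, hk, rfl, rfl⟩ := hsome i j' hi
    refine (hM _).trans (Real.exp_le_exp.2 ?_)
    have h3 := hγl k
    have h4 := hbase (ell (sc k)) (hellg _)
    have h5 : 0 ≤ h * ell (sc k) := mul_nonneg hh0.le (hell0 _)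
    show Q.a0 + Q.γ * ℓ (some k) ≤ _
    linarith
  case hMp =>
    intro i j' hi
    obtain ⟨k, hk, rfl, rfl⟩ := hsome i j' hi
    refine (hMp _).trans ?_
    have h3 := hγl k
    have h4 := hbase (ell (sc k)) (hellg _)
    exact (sq41_le _ _).trans (Real.exp_le_exp.2 (by linarith))
  case hrr =>
    intro i j' hi
    obtain ⟨k, hk, rfl, rfl⟩ := hsome i j' hi
    show Real.exp (Q.γ * ℓ (some k)) ≤ _
    refine Real.exp_le_exp.2 ?_
    have h3 := hγl k
    have h5 : 0 ≤ h * ell (sc k) := mul_nonneg hh0.le (hell0 _)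
    linarith
  case hR =>
    intro i j' hi
    obtain ⟨k, hk, rfl, rfl⟩ := hsome i j' hi
    show 2 * (σ * rho (some k)) ≤ _
    have h3 := rho1 k
    rw [hes k] at h3
    have h4 : Real.exp (-(1 / 2) * ell (sc k) + Q.γ * ell (sc k)) ≤
        Real.exp (-(1 / 2) * ell (sc k) + h * ell (sc k)) := by
      apply Real.exp_le_exp.2
      have := mul_le_mul_of_nonneg_right (show Q.γ ≤ h by linarith) (hell0 (sc k))
      linarith
    have h5 : σ * rho (some k) ≤ σ * Real.exp (-(1 / 2) * ell (sc k) + h * ell (sc k)) :=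
      mul_le_mul_of_nonneg_left (h3.trans h4) hσ0.le
    linarith
  case hE =>
    intro i j' hi
    obtain ⟨k, hk, rfl, rfl⟩ := hsome i j' hi
    show 2 * (σ * e (some k)) ≤ _
    have h3 := e1 k
    rw [hes k] at h3
    have h4 : Real.exp (-ell (sc k) + Q.γ * ell (sc k)) ≤
        Real.exp (-ell (sc k) + h * ell (sc k)) := by
      apply Real.exp_le_exp.2
      have := mul_le_mul_of_nonneg_right (show Q.γ ≤ h by linarith) (hell0 (sc k))
      linarith
    have h5 : σ * e (some k) ≤ σ * Real.exp (-ell (sc k) + h * ell (sc k)) :=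
      mul_le_mul_of_nonneg_left (h3.trans h4) hσ0.le
    linarith
  case q0 => exact qo_pos hLF0
  case q1 =>
    rintro ⟨i, hi⟩ hi'
    obtain rfl : i = none := hnone ⟨i, hi⟩ hi'
    exact o_q1 (by linarith) hLF1 (hB.M1 ⟨none, hi⟩) (hM ⟨none, hi⟩) (hto hi)
  case q2 =>
    rintro ⟨i, hi⟩ hi'
    obtain rfl : i = none := hnone ⟨i, hi⟩ hi'
    exact o_q2 hLF1 (hMp none)
  case Rq =>
    rintro ⟨i, hi⟩ hi'
    obtain rfl : i = none := hnone ⟨i, hi⟩ hi'
    exact o_Rq hLF1 hσ0 hs2 rhoo (by linarith)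
  case RK =>
    rintro ⟨i, hi⟩ hi'
    obtain rfl : i = none := hnone ⟨i, hi⟩ hi'
    exact o_RK hσ0 (hB.M1 ⟨none, hi⟩) (hMp1 none) (hM ⟨none, hi⟩) (hMp none) hs3 (hrho0 none)
      (he0 none) rhoo eoo hγlo

end law

end Vale.Agent.P042.H276
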