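import Vale.Agent.P042.H161.HtoK
import Vale.Agent.P042.H161.Wt
import Vale.Agent.P042.H365.NumH
import Vale.Agent.P042.H564.OoRow

/-!
# P042, F.INF3 (O4): rows at mixed rates with an extra coordinate, for high top scales

The rows at the rates `min ((t/M)^τ w^(1-τ)) cap` of 161's `mix_rws` and the numbers of every
leg: 564's structure `RwO`.
-/

set_option autoImplicit false

namespace Vale.Agent.P042.H276

open Finset Vale.Agent.P042.H232 Vale.Agent.P042.H461 Vale.Agent.P042.H416 Vale.Agent.P042.H742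
open Vale.Agent.P042.H161 (Rws PH mix_rws EE one_le_EE mr mr_nonneg leg_rate)
open Vale.Agent.P042.H365 (BHyp rate rate_pos)
open Vale.Agent.P042.H564.Oo (RwO el)

section num

/-- the ratio of the rows -/
noncomputable def thx (b : ℕ) (E : ℝ) : ℝ := √(4 * ((b + 1 : ℕ) : ℝ) * E)

theorem thx_sq (b : ℕ) {E : ℝ} (hE : 0 ≤ E) : thx b E ^ 2 = 4 * ((b : ℝ) + 1) * E := by
  unfold thx
  rw [Real.sq_sqrt (by positivity)]
  push_cast
  ring

theorem one_le_thx (b : ℕ) {E : ℝ} (hE : 1 ≤ E) : 1 ≤ thx b E := by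
  unfold thx
  rw [Real.one_le_sqrt]
  have : (1 : ℝ) ≤ ((b + 1 : ℕ) : ℝ) := by push_cast; linarith [Nat.cast_nonneg (α := ℝ) b]
  nlinarith

theorem thx_le {b : ℕ} (hb : 1 ≤ b) {E : ℝ} (hE1 : 1 ≤ E) (hE3 : E ≤ 3) :
    ((b : ℝ) * thx b E) ^ 2 ≤ 24 * (b : ℝ) ^ 3 := by
  have hb1 : (1 : ℝ) ≤ b := by exact_mod_cast hb
  rw [mul_pow, thx_sq b (by linarith)]
  have h1 : (b : ℝ) + 1 ≤ 2 * b := by linarith
  calc (b : ℝ) ^ 2 * (4 * ((b : ℝ) + 1) * E) ≤ (b : ℝ) ^ 2 * (4 * (2 * b) * 3) := by gcongr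
    _ = 24 * (b : ℝ) ^ 3 := by ring

/-- the cap of the rates -/
noncomputable def cap (b : ℕ) (θ K : ℝ) : ℝ := θ ^ 2 / (128 * (b : ℝ) ^ 2 * K ^ 2)

theorem cap_nonneg (b : ℕ) (θ K : ℝ) : 0 ≤ cap b θ K := by
  unfold cap
  positivity

theorem cap_coord {b : ℕ} (hb : 1 ≤ b) {θ K r : ℝ} (hK : 1 ≤ K) (hr : r ≤ cap b θ K) :
    128 * (b : ℝ) ^ 2 * (K ^ 2 * r) ≤ θ ^ 2 := by
  have hb1 : (1 : ℝ) ≤ b := by exact_mod_cast hb
  have h0 : 0 < 128 * (b : ℝ) ^ 2 * K ^ 2 := by positivity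
  unfold cap at hr
  rw [le_div_iff₀ h0] at hr
  linarith

/-- one leg, the cap part -/
theorem le_cap {b : ℕ} (hb : 1 ≤ b) {θ K x e : ℝ} (hK : 1 ≤ K)
    (h : 128 * (b : ℝ) ^ 4 * K ^ 2 * x ≤ e) : x * ((b : ℝ) * θ) ^ 2 ≤ e * cap b θ K := by
  have hb1 : (1 : ℝ) ≤ b := by exact_mod_cast hb
  have h0 : 0 < 128 * (b : ℝ) ^ 2 * K ^ 2 := by positivity
  unfold cap
  rw [mul_div_assoc', le_div_iff₀ h0]
  calc x * ((b : ℝ) * θ) ^ 2 * (128 * (b : ℝ) ^ 2 * K ^ 2)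
      = θ ^ 2 * (128 * (b : ℝ) ^ 4 * K ^ 2 * x) := by ring
    _ ≤ θ ^ 2 * e := mul_le_mul_of_nonneg_left h (sq_nonneg _)
    _ = _ := by ring

theorem rate_eq' (F x : ℝ) : rate F x = Real.exp (-(max 0 (x - F))) := by
  unfold rate
  rcases le_total x F with h' | h'
  · rw [max_eq_left (by linarith), neg_zero, Real.exp_zero, min_eq_left]
    rw [← Real.exp_zero]
    exact Real.exp_le_exp.2 (by linarith)
  · rw [max_eq_right (by linarith), min_eq_right]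
    · congr 1; ring
    · rw [← Real.exp_zero]
      exact Real.exp_le_exp.2 (by linarith)

/-- the row constant -/
theorem K_le {h x E K M Mp : ℝ} (hE1 : 1 ≤ E) (hE3 : E ≤ 3) (hM1 : 1 ≤ M)
    (hM : M ≤ Real.exp (h * x)) (hMp1 : 1 ≤ Mp) (hMp : Mp ≤ Real.exp (h * x))
    (hK : K = 2 * M * Mp * E) : 1 ≤ K ∧ K ^ 2 ≤ 36 * Real.exp (4 * (h * x)) := by
  have hK1 : 1 ≤ K := by
    rw [hK]
    have h1 : 1 ≤ M * Mp := one_le_mul_of_one_le_of_one_le hM1 hMp1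
    have h2 : 1 ≤ M * Mp * E := one_le_mul_of_one_le_of_one_le h1 hE1
    linarith
  refine ⟨hK1, ?_⟩
  have h1 : K ≤ 6 * Real.exp (2 * (h * x)) := by
    rw [hK]
    have h2 : M * Mp ≤ Real.exp (h * x) * Real.exp (h * x) :=
      mul_le_mul hM hMp (by linarith) (Real.exp_pos _).le
    rw [← Real.exp_add] at h2
    have h3 : h * x + h * x = 2 * (h * x) := by ring
    rw [h3] at h2
    have h4 : 2 * (M * Mp) * E ≤ 2 * Real.exp (2 * (h * x)) * 3 :=
      mul_le_mul (by linarith) hE3 (by linarith) (by positivity)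
    calc 2 * M * Mp * E = 2 * (M * Mp) * E := by ring
      _ ≤ _ := h4
      _ = _ := by ring
  calc K ^ 2 ≤ (6 * Real.exp (2 * (h * x))) ^ 2 := pow_le_pow_left₀ (by linarith) h1 2
    _ = 36 * Real.exp (4 * (h * x)) := by
      rw [mul_pow, ← Real.exp_nat_mul]
      congr 1
      · norm_num
      · congr 1
        push_cast
        ring

theorem sig_le {b : ℕ} (hb : 1 ≤ b) {Kf σ : ℝ} (hKf : 128 * (b : ℝ) ≤ Kf)
    (hs0 : 0 < σ) (hs1 : 1000 * Kf * σ * (b : ℝ) ^ 4 ≤ 1) : 4608 * σ * (b : ℝ) ^ 4 ≤ 1 := by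
  have hb1 : (1 : ℝ) ≤ b := by exact_mod_cast hb
  have h1 : 128 * σ * (b : ℝ) ^ 4 ≤ Kf * σ * (b : ℝ) ^ 4 := by
    have : (128 : ℝ) ≤ Kf := by linarith
    gcongr
  linarith

/-- small weights against the square of the row constant -/
theorem leg_sec {b : ℕ} (hb : 1 ≤ b) {h c x Kf σ ε K R : ℝ}
    (hx : 0 ≤ x) (hε1 : ε ≤ 1 / 12) (hh : h ≤ ε / 16) (hc : h + 2 * c ≤ ε / 2)
    (hKf : 128 * (b : ℝ) ≤ Kf) (hs0 : 0 < σ) (hs1 : 1000 * Kf * σ * (b : ℝ) ^ 4 ≤ 1)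
    (hKle : K ^ 2 ≤ 36 * Real.exp (4 * (h * x)))
    (hR0 : 0 ≤ R) (hR : R ≤ σ * Real.exp (-(1 / 2) * x + h * x)) :
    128 * (b : ℝ) ^ 4 * K ^ 2 * R ≤ Real.exp (-(2 * c * x)) := by
  have h1 : 128 * (b : ℝ) ^ 4 * K ^ 2 * R ≤ 128 * (b : ℝ) ^ 4 * (36 * Real.exp (4 * (h * x))) *
      (σ * Real.exp (-(1 / 2) * x + h * x)) := by
    apply mul_le_mul _ hR hR0 (by positivity)
    exact mul_le_mul_of_nonneg_left hKle (by positivity)
  refine h1.trans ?_
  have h2 : 128 * (b : ℝ) ^ 4 * (36 * Real.exp (4 * (h * x))) *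
      (σ * Real.exp (-(1 / 2) * x + h * x)) =
      (4608 * σ * (b : ℝ) ^ 4) * Real.exp (-(1 / 2) * x + 5 * (h * x)) := by
    rw [show -(1 / 2) * x + 5 * (h * x) = 4 * (h * x) + (-(1 / 2) * x + h * x) by ring,
      Real.exp_add (4 * (h * x))]
    ring
  rw [h2]
  have h5 : Real.exp (-(1 / 2) * x + 5 * (h * x)) ≤ Real.exp (-(2 * c * x)) := by
    apply Real.exp_le_exp.2
    have h6 : (h + 2 * c) * x ≤ ε / 2 * x := mul_le_mul_of_nonneg_right hc hx
    have h7 : h * x ≤ ε / 16 * x := mul_le_mul_of_nonneg_right hh hx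
    have h8 : ε * x ≤ 1 / 12 * x := mul_le_mul_of_nonneg_right hε1 hx
    linarith
  calc _ ≤ 1 * Real.exp (-(1 / 2) * x + 5 * (h * x)) :=
        mul_le_mul_of_nonneg_right (sig_le hb hKf hs0 hs1) (Real.exp_pos _).le
    _ ≤ _ := by rw [one_mul]; exact h5

theorem rate_div {h F Kf t M x : ℝ} (hh0 : 0 ≤ h) (hx : 0 ≤ x) (hKf0 : 0 < Kf)
    (ht : rate F x / Kf ≤ t) (hM1 : 1 ≤ M) (hM : M ≤ Real.exp (h * x)) :
    Real.exp (-(max 0 (x - F)) - 2 * h * x) / Kf ≤ t / M := by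
  rw [le_div_iff₀ (by linarith)]
  refine le_trans ?_ ht
  have hhx : 0 ≤ h * x := mul_nonneg hh0 hx
  rw [rate_eq', sub_eq_add_neg, Real.exp_add]
  have e2 : Real.exp (-(2 * h * x)) * M ≤ 1 := by
    calc Real.exp (-(2 * h * x)) * M ≤ Real.exp (-(2 * h * x)) * Real.exp (h * x) :=
          mul_le_mul_of_nonneg_left hM (Real.exp_pos _).le
      _ = Real.exp (-(h * x)) := by rw [← Real.exp_add]; congr 1; ring
      _ ≤ 1 := by rw [Real.exp_le_one_iff]; linarith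
  calc Real.exp (-(max 0 (x - F))) * Real.exp (-(2 * h * x)) / Kf * M
      = Real.exp (-(max 0 (x - F))) / Kf * (Real.exp (-(2 * h * x)) * M) := by
        ring
    _ ≤ Real.exp (-(max 0 (x - F))) / Kf * 1 :=
        mul_le_mul_of_nonneg_left e2 (by positivity)
    _ = _ := mul_one _

/-- **One leg, the rate.** -/
theorem leg_mix {b : ℕ} (hb : 1 ≤ b) {h c x Kf σ E m p G ε κ1 cs C1 t M w R : ℝ}
    (hp : 0 < p) (hx : 0 ≤ x) (hxC : x ≤ C1 * p) (hC1 : 1 ≤ C1) (hcs0 : 0 < cs) (hcs1 : cs ≤ 1)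
    (hε : ε = cs / (12 * C1)) (hG0 : 0 ≤ G) (hG : G ≤ ε / 8) (hh0 : 0 ≤ h) (hh : h ≤ ε / 16)
    (hc : h + 2 * c ≤ ε / 2) (hκ1 : κ1 ≤ cs / 24) (hKf : 128 * (b : ℝ) ≤ Kf)
    (hs0 : 0 < σ) (hs1 : 1000 * Kf * σ * (b : ℝ) ^ 4 ≤ 1) (hE1 : 1 ≤ E) (hE3 : E ≤ 3)
    (ht : rate ((1 - G) * p) x / Kf ≤ t) (hM1 : 1 ≤ M) (hM : M ≤ Real.exp (h * x))
    (hw1 : x < p → Real.exp (-(1 + 2 * h) * x) / (4 * Kf) ≤ w)
    (hw2 : p ≤ x → Real.exp (-(1 - cs + κ1) * p) / (4 * Kf) ≤ w)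
    (hR : R ≤ σ * Real.exp (-(1 / 2) * x + h * x))
    (hm : m = (t / M) ^ (1 / 2 + ε) * w ^ (1 - (1 / 2 + ε))) :
    R * ((b : ℝ) * thx b E) ^ 2 ≤ Real.exp (-(2 * c * x)) * m := by
  have hb1 : (1 : ℝ) ≤ b := by exact_mod_cast hb
  have hKf0 : 0 < Kf := by linarith
  have hKf1 : 1 ≤ Kf := by linarith
  have hth := thx_le hb hE1 hE3
  have hleg := leg_rate (ell := x) (Pi := p) (g := G) (ε := ε) (κ0 := 2 * h) (κ1 := κ1)
    (cs := cs) (C1 := C1) (Kf := Kf) (x := t / M) (y := w) hp hx hxC hC1 hcs0 hcs1 hε hG0 hG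
    (by linarith) (by linarith) hκ1 hKf1 (rate_div hh0 hx hKf0 ht hM1 hM) hw1 hw2
  have hm' : (t / M) ^ (1 / 2 + ε) * w ^ (1 / 2 - ε) = m := by
    rw [hm]
    congr 2
    ring
  rw [hm'] at hleg
  have hm0 : 0 ≤ m := by
    have h1 : 0 < Real.exp (-x / 2) := Real.exp_pos _
    have h2 : 0 < 4 * Kf * Real.exp (-(ε / 2) * x) := by positivity
    by_contra hneg
    push Not at hneg
    have := mul_neg_of_pos_of_neg h2 hneg
    linarith
  have hb34 : 96 * Kf * σ * (b : ℝ) ^ 3 ≤ 1 := by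
    have h4 : (b : ℝ) ^ 3 ≤ (b : ℝ) ^ 4 := pow_le_pow_right₀ hb1 (by norm_num)
    have h6 : 0 ≤ Kf * σ := by positivity
    have h7 : Kf * σ * (b : ℝ) ^ 3 ≤ Kf * σ * (b : ℝ) ^ 4 := mul_le_mul_of_nonneg_left h4 h6
    have h8 : 0 ≤ Kf * σ * (b : ℝ) ^ 4 := by positivity
    linarith
  have hexp : Real.exp (h * x) * Real.exp (-(ε / 2) * x) ≤ Real.exp (-(2 * c * x)) := by
    rw [← Real.exp_add]
    apply Real.exp_le_exp.2
    have h6 : (h + 2 * c) * x ≤ ε / 2 * x := mul_le_mul_of_nonneg_right hc hx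
    linarith
  calc R * ((b : ℝ) * thx b E) ^ 2
      ≤ (σ * Real.exp (-(1 / 2) * x + h * x)) * (24 * (b : ℝ) ^ 3) :=
        mul_le_mul hR hth (by positivity) (by positivity)
    _ = (24 * σ * (b : ℝ) ^ 3) * Real.exp (h * x) * Real.exp (-x / 2) := by
        rw [mul_assoc (24 * σ * (b : ℝ) ^ 3), ← Real.exp_add,
          show h * x + -x / 2 = -(1 / 2) * x + h * x by ring]
        ring
    _ ≤ (24 * σ * (b : ℝ) ^ 3) * Real.exp (h * x) *
          (4 * Kf * Real.exp (-(ε / 2) * x) * m) :=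
        mul_le_mul_of_nonneg_left hleg (by positivity)
    _ = (96 * Kf * σ * (b : ℝ) ^ 3) * ((Real.exp (h * x) * Real.exp (-(ε / 2) * x)) * m) := by
        ring
    _ ≤ 1 * (Real.exp (-(2 * c * x)) * m) :=
        mul_le_mul hb34 (mul_le_mul_of_nonneg_right hexp hm0) (by positivity) zero_le_one
    _ = _ := by ring

/-- **The leg `o`.** -/
theorem leg_o {b : ℕ} (hb : 1 ≤ b) {τ E K m q t M w R : ℝ} (hτ0 : 0 ≤ τ) (hτ1 : τ ≤ 1)
    (hE1 : 1 ≤ E) (hE3 : E ≤ 3) (hK1 : 1 ≤ K) (hq : 0 < q) (hq1 : q ≤ t / M) (hq2 : q ≤ w)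
    (hR0 : 0 ≤ R) (hRq : 24 * (b : ℝ) ^ 3 * R ≤ q) (hRK : 128 * (b : ℝ) ^ 4 * K ^ 2 * R ≤ 1)
    (hm : m = (t / M) ^ τ * w ^ (1 - τ)) :
    R * ((b : ℝ) * thx b E) ^ 2 ≤ min m (cap b (thx b E) K) := by
  rw [le_min_iff]
  constructor
  · have h1 : q ≤ m := by
      rw [hm]
      calc q = q ^ τ * q ^ (1 - τ) := by
            rw [← Real.rpow_add hq]
            simp
        _ ≤ _ := mul_le_mul (Real.rpow_le_rpow hq.le hq1 hτ0)
            (Real.rpow_le_rpow hq.le hq2 (by linarith)) (Real.rpow_nonneg hq.le _)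
            (Real.rpow_nonneg (hq.le.trans hq1) _)
    calc R * ((b : ℝ) * thx b E) ^ 2 ≤ R * (24 * (b : ℝ) ^ 3) :=
          mul_le_mul_of_nonneg_left (thx_le hb hE1 hE3) hR0
      _ = 24 * (b : ℝ) ^ 3 * R := by ring
      _ ≤ q := hRq
      _ ≤ m := h1
  · have := le_cap hb (θ := thx b E) (x := R) (e := 1) hK1 hRK
    linarith

end num

universe v

variable {J : Type v} {ι : Type*} [Fintype ι] [DecidableEq ι] {V : ι → Type*}
  [∀ i, Fintype (V i)] [∀ i, DecidableEq (V i)]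

/-- the constants of the rows -/
noncomputable def Kx (M Mp : ι → ℝ) (E : ℝ) (i : ι) : ℝ := 2 * M i * Mp i * E

/-- the rates of the rows -/
noncomputable def rx (ε : ℝ) (t M Mp w : ι → ℝ) (b : ℕ) (E : ℝ) (i : ι) : ℝ :=
  min (mr (1 / 2 + ε) (fun i => t i / M i) w i) (cap b (thx b E) (Kx M Mp E i))

/-- **(O4): the rows with the extra coordinate at high top scales.** -/
theorem rwO_high {lam : ∀ i, V i → ℝ} {mu : (∀ i, V i) → ℝ} {sc : ι → Option J} {ell : J → ℝ}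
    {g c1 : ℝ} {b b0 : ℕ} {R E : ι → ℝ} {t M Mp w : ι → ℝ} {L Λ ε' κ' δ : ℝ}
    {p G h Kf σ Gc ε κ1 cs C1 q : ℝ} {Lo : Finset ι}
    (hB : BHyp lam mu t M L Λ ε' κ' δ (b + 1)) (hMp : ∀ j, 1 ≤ Mp j) (hGc : 0 < Gc)
    (hH : PH lam (gr lam mu) Loᶜ Mp Gc b0) (hb0 : b + 1 ≤ b0) (hb : 1 ≤ b)
    (hw0 : ∀ j, 0 ≤ w j) (hwG : ∀ j ∉ Lo, w j ≤ 1 / Gc)
    (hsum : ∑ j ∈ Lo, 4 * w j * Mp j ≤ 1)
    (uniq : ∀ i j, sc i = none → sc j = none → i = j)
    -- numbers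
    (hp : 0 < p) (hC1 : 1 ≤ C1) (hcs0 : 0 < cs) (hcs1 : cs ≤ 1) (hε : ε = cs / (12 * C1))
    (hG0 : 0 ≤ G) (hG : G ≤ ε / 8) (hh0 : 0 ≤ h) (hh : h ≤ ε / 16)
    (hc : h + 2 * (c1 + g) ≤ ε / 2) (hκ1 : κ1 ≤ cs / 24) (hKf : 128 * (b : ℝ) ≤ Kf)
    (hs0 : 0 < σ) (hs1 : 1000 * Kf * σ * (b : ℝ) ^ 4 ≤ 1)
    (hR0 : ∀ i, 0 ≤ R i) (hE0 : ∀ i, 0 ≤ E i)
    -- ordinary sites
    (hx : ∀ i j, sc i = some j → 0 ≤ ell j ∧ ell j ≤ C1 * p)
    (ht : ∀ i j, sc i = some j → rate ((1 - G) * p) (ell j) / Kf ≤ t i)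
    (hM : ∀ i j, sc i = some j → M i ≤ Real.exp (h * ell j))
    (hMp' : ∀ i j, sc i = some j → Mp i ≤ Real.exp (h * ell j))
    (hw1 : ∀ i j, sc i = some j → ell j < p →
      Real.exp (-(1 + 2 * h) * ell j) / (4 * Kf) ≤ w i)
    (hw2 : ∀ i j, sc i = some j → p ≤ ell j → Real.exp (-(1 - cs + κ1) * p) / (4 * Kf) ≤ w i)
    (hR : ∀ i j, sc i = some j → R i ≤ σ * Real.exp (-(1 / 2) * ell j + h * ell j))
    (hE : ∀ i j, sc i = some j → E i ≤ σ * Real.exp (-ell j + h * ell j))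
    -- the extra site
    (hq : 0 < q) (hq1 : ∀ i, sc i = none → q ≤ t i / M i) (hq2 : ∀ i, sc i = none → q ≤ w i)
    (hRq : ∀ i, sc i = none → 24 * (b : ℝ) ^ 3 * R i ≤ q)
    (hRK : ∀ i, sc i = none → 4608 * (b : ℝ) ^ 4 * (M i * Mp i) ^ 2 * (R i + E i) ≤ 1) :
    RwO lam mu sc ell g c1 b R E (rx ε t M Mp w b (EE Lo w Mp)) (Kx M Mp (EE Lo w Mp))
      (thx b (EE Lo w Mp)) L := by
  have hE1 : 1 ≤ EE Lo w Mp := one_le_EE hw0 hMp
  have hE3 : EE Lo w Mp ≤ 3 := by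
    unfold EE
    calc Real.exp (∑ j ∈ Lo, 4 * w j * Mp j) ≤ Real.exp 1 := Real.exp_le_exp.2 hsum
      _ ≤ 3 := by have := Real.exp_one_lt_d9; linarith
  have hC10 : 0 < C1 := by linarith
  have hε0 : 0 < ε := by rw [hε]; positivity
  have hε1 : ε ≤ 1 / 12 := by
    rw [hε, div_le_iff₀ (by positivity)]
    nlinarith
  have hK1 : ∀ i, 1 ≤ Kx M Mp (EE Lo w Mp) i := by
    intro i
    have h1 := hB.M1 i
    have h2 := hMp i
    unfold Kx
    have h3 : 1 ≤ M i * Mp i := one_le_mul_of_one_le_of_one_le h1 h2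
    have h4 : 1 ≤ M i * Mp i * EE Lo w Mp := one_le_mul_of_one_le_of_one_le h3 hE1
    linarith
  have hmr0 : ∀ i, 0 ≤ mr (1 / 2 + ε) (fun i => t i / M i) w i :=
    mr_nonneg (fun i => div_nonneg (hB.t0 i).le (by linarith [hB.M1 i])) hw0
  have hKo : ∀ i, Kx M Mp (EE Lo w Mp) i ^ 2 ≤ 36 * (M i * Mp i) ^ 2 := by
    intro i
    have h1 := hB.M1 i
    have h2 := hMp i
    have h3 : 0 ≤ M i * Mp i := by positivity
    have h4 : Kx M Mp (EE Lo w Mp) i ≤ 6 * (M i * Mp i) := by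
      unfold Kx
      have := mul_le_mul_of_nonneg_left hE3 h3
      linarith
    calc _ ≤ (6 * (M i * Mp i)) ^ 2 := pow_le_pow_left₀ (by linarith [hK1 i]) h4 2
      _ = _ := by ring
  have hb1 : (1 : ℝ) ≤ b := by exact_mod_cast hb
  have hb4 : (1 : ℝ) ≤ (b : ℝ) ^ 4 := one_le_pow₀ hb1
  have hoK : ∀ i, sc i = none → 128 * (b : ℝ) ^ 4 * Kx M Mp (EE Lo w Mp) i ^ 2 * (R i + E i) ≤ 1 := by
    intro i hi
    have h1 : 0 ≤ R i + E i := add_nonneg (hR0 i) (hE0 i)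
    calc _ ≤ 128 * (b : ℝ) ^ 4 * (36 * (M i * Mp i) ^ 2) * (R i + E i) :=
          mul_le_mul_of_nonneg_right (mul_le_mul_of_nonneg_left (hKo i) (by positivity)) h1
      _ = 4608 * (b : ℝ) ^ 4 * (M i * Mp i) ^ 2 * (R i + E i) := by ring
      _ ≤ 1 := hRK i hi
  have hexp0 : ∀ i, sc i = none → Real.exp (-(2 * (c1 + g) * el ell (sc i))) = 1 := by
    intro i hi
    rw [hi]
    simp
  refine
    { rws := ?_, ref := hB.ref, sum := hB.sum, K1 := hK1, g1 := ?_, th := one_le_thx b hE1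
      b1 := hb, R0 := hR0, E0 := hE0, coord := fun i => cap_coord hb (hK1 i) (min_le_right _ _)
      leg := ?_, legE := ?_, root := ?_, uniq := uniq }
  · have h1 := mix_rws hB hMp hGc hH hb0 hw0 hwG (τ := 1 / 2 + ε) (by linarith) (by linarith)
    exact h1.mono hB.ref.nonneg (fun i => le_min (hmr0 i) (cap_nonneg _ _ _))
      (fun i => min_le_left _ _) (fun i => le_rfl) le_rfl
  · intro i a ha
    refine (hB.g1_le i a ha).trans ?_
    have h1 := hB.M1 i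
    have h2 := hMp i
    unfold Kx
    have h3 : 1 ≤ Mp i * EE Lo w Mp := one_le_mul_of_one_le_of_one_le h2 hE1
    have h4 : M i * 1 ≤ M i * (Mp i * EE Lo w Mp) := mul_le_mul_of_nonneg_left h3 (by linarith)
    linarith
  · intro i
    rcases hi : sc i with _ | j
    · rw [show el ell none = 0 from rfl, mul_zero, neg_zero, Real.exp_zero, one_mul]
      refine leg_o hb (by linarith) (by linarith) hE1 hE3 (hK1 i) hq (hq1 i hi) (hq2 i hi)
        (hR0 i) (hRq i hi) ?_ rfl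
      have h1 := hoK i hi
      have h2 : 128 * (b : ℝ) ^ 4 * Kx M Mp (EE Lo w Mp) i ^ 2 * R i ≤
          128 * (b : ℝ) ^ 4 * Kx M Mp (EE Lo w Mp) i ^ 2 * (R i + E i) :=
        mul_le_mul_of_nonneg_left (by linarith [hE0 i]) (by positivity)
      linarith
    · rw [show el ell (some j) = ell j from rfl]
      obtain ⟨hx0, hxC⟩ := hx i j hi
      have hKle := (K_le hE1 hE3 (hB.M1 i) (hM i j hi) (hMp i) (hMp' i j hi)
        (K := Kx M Mp (EE Lo w Mp) i) rfl).2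
      show R i * ((b : ℝ) * thx b (EE Lo w Mp)) ^ 2 ≤ _ * min _ _
      rw [mul_min_of_nonneg _ _ (Real.exp_pos _).le, le_min_iff]
      exact ⟨leg_mix hb hp hx0 hxC hC1 hcs0 hcs1 hε hG0 hG hh0 hh hc hκ1 hKf hs0 hs1 hE1 hE3
        (ht i j hi) (hB.M1 i) (hM i j hi) (hw1 i j hi) (hw2 i j hi) (hR i j hi) rfl,
        le_cap hb (hK1 i) (leg_sec hb hx0 hε1 hh hc hKf hs0 hs1 hKle (hR0 i) (hR i j hi))⟩
  · intro i
    rcases hi : sc i with _ | j
    · rw [show el ell none = 0 from rfl, mul_zero, neg_zero, Real.exp_zero]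
      have h1 := hoK i hi
      have h2 : 128 * (b : ℝ) ^ 4 * Kx M Mp (EE Lo w Mp) i ^ 2 * E i ≤
          128 * (b : ℝ) ^ 4 * Kx M Mp (EE Lo w Mp) i ^ 2 * (R i + E i) :=
        mul_le_mul_of_nonneg_left (by linarith [hR0 i]) (by positivity)
      linarith
    · rw [show el ell (some j) = ell j from rfl]
      obtain ⟨hx0, hxC⟩ := hx i j hi
      have hKle := (K_le hE1 hE3 (hB.M1 i) (hM i j hi) (hMp i) (hMp' i j hi)
        (K := Kx M Mp (EE Lo w Mp) i) rfl).2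
      refine leg_sec hb hx0 hε1 hh hc hKf hs0 hs1 hKle (hE0 i) ((hE i j hi).trans ?_)
      apply mul_le_mul_of_nonneg_left _ hs0.le
      apply Real.exp_le_exp.2
      linarith
  · intro i hi
    have h1 := hoK i hi
    have h2 : 0 ≤ Kx M Mp (EE Lo w Mp) i ^ 2 * (R i + E i) :=
      mul_nonneg (sq_nonneg _) (add_nonneg (hR0 i) (hE0 i))
    nlinarith

/-- the low sites and the extra site -/
noncomputable def LoO (sc : ι → Option J) (ell : J → ℝ) (p : ℝ) : Finset ι := by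
  classical
  exact univ.filter fun i => ∀ j, sc i = some j → ell j < p

theorem mem_LoO {sc : ι → Option J} {ell : J → ℝ} {p : ℝ} {i : ι} :
    i ∈ LoO sc ell p ↔ ∀ j, sc i = some j → ell j < p := by
  classical
  unfold LoO
  simp

/-- the rates of Theorem H -/
noncomputable def wO (sc : ι → Option J) (ell : J → ℝ) (p h Kf Gx : ℝ) (Mp : ι → ℝ) (i : ι) : ℝ :=
  match sc i with
  | none => 1 / (8 * Mp i)
  | some j => if ell j < p then Real.exp (-(1 + 2 * h) * ell j) / (4 * Kf)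
      else Real.exp (-(Gx * p)) / (4 * Kf)

/-- **(O4), explicit rates of Theorem H.** -/
theorem rwO_high' [Fintype J] [DecidableEq J] {lam : ∀ i, V i → ℝ} {mu : (∀ i, V i) → ℝ}
    {sc : ι → Option J} {ell : J → ℝ}
    {g c1 : ℝ} {b b0 : ℕ} {R E : ι → ℝ} {t M Mp : ι → ℝ} {L Λ ε' κ' δ : ℝ}
    {p G h Kf σ Gc ε κ1 cs C1 q : ℝ}
    (hB : BHyp lam mu t M L Λ ε' κ' δ (b + 1)) (hMp : ∀ j, 1 ≤ Mp j) (hGc : 0 < Gc)
    (hH : PH lam (gr lam mu) (LoO sc ell p)ᶜ Mp Gc b0) (hb0 : b + 1 ≤ b0) (hb : 1 ≤ b)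
    (uniq : ∀ i j, sc i = none → sc j = none → i = j)
    (hp : 0 < p) (hC1 : 1 ≤ C1) (hcs0 : 0 < cs) (hcs1 : cs ≤ 1) (hε : ε = cs / (12 * C1))
    (hG0 : 0 ≤ G) (hG : G ≤ ε / 8) (hh0 : 0 ≤ h) (hh : h ≤ ε / 16)
    (hc : h + 2 * (c1 + g) ≤ ε / 2) (hκ1 : κ1 ≤ cs / 24) (hKf : 128 * (b : ℝ) ≤ Kf)
    (hGG : Gc ≤ 4 * Kf * Real.exp ((1 - cs + κ1) * p))
    (hs0 : 0 < σ) (hs1 : 1000 * Kf * σ * (b : ℝ) ^ 4 ≤ 1)
    (hR0 : ∀ i, 0 ≤ R i) (hE0 : ∀ i, 0 ≤ E i)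
    (hcard : ∀ j, ((univ.filter fun i => sc i = some j).card : ℝ) ≤ Real.exp (ell j))
    (hJ : ∑ j, Real.exp (-(h * ell j)) ≤ Kf / 2)
    (hx : ∀ i j, sc i = some j → 0 ≤ ell j ∧ ell j ≤ C1 * p)
    (ht : ∀ i j, sc i = some j → rate ((1 - G) * p) (ell j) / Kf ≤ t i)
    (hM : ∀ i j, sc i = some j → M i ≤ Real.exp (h * ell j))
    (hMp' : ∀ i j, sc i = some j → Mp i ≤ Real.exp (h * ell j))
    (hR : ∀ i j, sc i = some j → R i ≤ σ * Real.exp (-(1 / 2) * ell j + h * ell j))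
    (hE : ∀ i j, sc i = some j → E i ≤ σ * Real.exp (-ell j + h * ell j))
    (hq : 0 < q) (hq1 : ∀ i, sc i = none → q ≤ t i / M i)
    (hq2 : ∀ i, sc i = none → 8 * Mp i * q ≤ 1)
    (hRq : ∀ i, sc i = none → 24 * (b : ℝ) ^ 3 * R i ≤ q)
    (hRK : ∀ i, sc i = none → 4608 * (b : ℝ) ^ 4 * (M i * Mp i) ^ 2 * (R i + E i) ≤ 1) :
    ∃ r K θ, RwO lam mu sc ell g c1 b R E r K θ L := by
  classical
  have hb1 : (1 : ℝ) ≤ b := by exact_mod_cast hb
  have hKf0 : 0 < Kf := by linarith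
  set w : ι → ℝ := wO sc ell p h Kf (1 - cs + κ1) Mp with hw
  have hwn : ∀ i, sc i = none → w i = 1 / (8 * Mp i) := by
    intro i hi
    rw [hw]
    unfold wO
    rw [hi]
  have hws : ∀ i j, sc i = some j → w i = if ell j < p then
      Real.exp (-(1 + 2 * h) * ell j) / (4 * Kf) else
      Real.exp (-((1 - cs + κ1) * p)) / (4 * Kf) := by
    intro i j hi
    rw [hw]
    unfold wO
    rw [hi]
  have hw0 : ∀ i, 0 ≤ w i := by
    intro i
    rcases hi : sc i with _ | j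
    · rw [hwn i hi]
      have := hMp i
      positivity
    · rw [hws i j hi]
      split_ifs <;> positivity
  refine ⟨_, _, _, rwO_high (w := w) (κ1 := κ1) (q := q) hB hMp hGc hH hb0 hb hw0 ?_ ?_ uniq hp hC1
    hcs0 hcs1 hε hG0 hG hh0 hh hc hκ1 hKf hs0 hs1 hR0 hE0 hx ht hM hMp' ?_ ?_ hR hE hq hq1 ?_ hRq
    hRK⟩
  · intro i hi
    rw [mem_LoO] at hi
    push Not at hi
    obtain ⟨j, hj, hpj⟩ := hi
    rw [hws i j hj, if_neg (by linarith), div_le_div_iff₀ (by positivity) hGc, one_mul]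
    calc Real.exp (-((1 - cs + κ1) * p)) * Gc ≤ Real.exp (-((1 - cs + κ1) * p)) *
          (4 * Kf * Real.exp ((1 - cs + κ1) * p)) :=
          mul_le_mul_of_nonneg_left hGG (Real.exp_pos _).le
      _ = 4 * Kf * (Real.exp (-((1 - cs + κ1) * p)) * Real.exp ((1 - cs + κ1) * p)) := by ring
      _ = 4 * Kf := by rw [← Real.exp_add]; simp
  · -- the sum over the low sites
    have h1 : ∑ i ∈ LoO sc ell p, 4 * w i * Mp i ≤
        ∑ i, ((if sc i = none then 1 / 2 else 0) + ∑ j, if sc i = some j then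
          Real.exp (-(1 + h) * ell j) / Kf else 0) := by
      have h0 : ∀ i : ι, 0 ≤ ((if sc i = none then 1 / 2 else 0) + ∑ j, if sc i = some j then
          Real.exp (-(1 + h) * ell j) / Kf else 0 : ℝ) := by
        intro i
        refine add_nonneg (by split_ifs <;> norm_num) (Finset.sum_nonneg fun j _ => ?_)
        split_ifs
        · positivity
        · exact le_rfl
      refine le_trans (Finset.sum_le_sum fun i hi => ?_)
        (Finset.sum_le_sum_of_subset_of_nonneg (Finset.subset_univ (LoO sc ell p))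
          fun i _ _ => h0 i)
      rw [mem_LoO] at hi
      rcases hs : sc i with _ | j
      · rw [hwn i hs]
        have h2 := hMp i
        have h3 : 4 * (1 / (8 * Mp i)) * Mp i = 1 / 2 := by
          field_simp
          ring
        rw [h3]
        simp
      · rw [hws i j hs, if_pos (hi j hs)]
        rw [if_neg (by simp), zero_add]
        have h4 : ∑ j', (if some j = some j' then Real.exp (-(1 + h) * ell j') / Kf else 0) =
            Real.exp (-(1 + h) * ell j) / Kf := by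
          simp
        rw [h4]
        have h5 := hMp' i j hs
        calc 4 * (Real.exp (-(1 + 2 * h) * ell j) / (4 * Kf)) * Mp i
            ≤ 4 * (Real.exp (-(1 + 2 * h) * ell j) / (4 * Kf)) * Real.exp (h * ell j) :=
              mul_le_mul_of_nonneg_left h5 (by positivity)
          _ = (Real.exp (-(1 + 2 * h) * ell j) * Real.exp (h * ell j)) / Kf := by
              field_simp
          _ = _ := by
              rw [← Real.exp_add]
              congr 2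
              ring
    refine h1.trans ?_
    rw [Finset.sum_add_distrib, Finset.sum_comm]
    have h2 : ∑ i, (if sc i = none then (1 / 2 : ℝ) else 0) ≤ 1 / 2 := by
      rw [← Finset.sum_filter, Finset.sum_const, nsmul_eq_mul]
      have h3 : (univ.filter fun i => sc i = none).card ≤ 1 := by
        rw [Finset.card_le_one]
        intro a ha a' ha'
        exact uniq a a' (Finset.mem_filter.1 ha).2 (Finset.mem_filter.1 ha').2
      have h4 : (((univ.filter fun i => sc i = none).card : ℕ) : ℝ) ≤ 1 := by exact_mod_cast h3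
      nlinarith
    have h5 : ∀ j, ∑ i, (if sc i = some j then Real.exp (-(1 + h) * ell j) / Kf else 0) ≤
        Real.exp (-(h * ell j)) / Kf := by
      intro j
      rw [← Finset.sum_filter, Finset.sum_const, nsmul_eq_mul]
      calc _ ≤ Real.exp (ell j) * (Real.exp (-(1 + h) * ell j) / Kf) :=
            mul_le_mul_of_nonneg_right (hcard j) (by positivity)
        _ = (Real.exp (ell j) * Real.exp (-(1 + h) * ell j)) / Kf := by ring
        _ = _ := by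
            rw [← Real.exp_add]
            congr 2
            ring
    have h6 : ∑ j, ∑ i, (if sc i = some j then Real.exp (-(1 + h) * ell j) / Kf else 0) ≤ 1 / 2 := by
      refine (Finset.sum_le_sum fun j _ => h5 j).trans ?_
      rw [← Finset.sum_div, div_le_iff₀ hKf0]
      linarith
    linarith
  · intro i j hi hlt
    rw [hws i j hi, if_pos hlt]
  · intro i j hi hle
    rw [hws i j hi, if_neg (by linarith)]
    apply le_of_eq
    congr 2
    ring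
  · intro i hi
    rw [hwn i hi, le_div_iff₀ (by have := hMp i; positivity)]
    have := hq2 i hi
    linarith

end Vale.Agent.P042.H276
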