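import Vale.Agent.P042.H276.RwHi
import Vale.Agent.P042.H422.RefC

/-!
# P042, F.INF3 (O4): the rows at high top scales, with the change of the reference

`lam` is the reference of block [B] and of Theorem H (the marginals of the state law), `lam2` the
reference of the kernels (uniform at `o` and on the top sites), `lam ≤ rr * lam2`: 564's structure
`RwO` relative to `lam2`.
-/

set_option autoImplicit false

namespace Vale.Agent.P042.H276

open Finset Vale.Agent.P042.H232 Vale.Agent.P042.H461 Vale.Agent.P042.H416 Vale.Agent.P042.H742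
open Vale.Agent.P042.H161 (Rws PH mix_rws EE one_le_EE mr mr_nonneg leg_rate)
open Vale.Agent.P042.H365 (BHyp rate rate_pos)
open Vale.Agent.P042.H678 (m1_le_M)
open Vale.Agent.P042.H564.Oo (RwO el)
open Vale.Agent.P042.H422 (RefPair)
open Vale.Agent.P042.H779 (m1)

universe v

variable {J : Type v} {ι : Type*} [Fintype ι] [DecidableEq ι] {V : ι → Type*}
  [∀ i, Fintype (V i)] [∀ i, DecidableEq (V i)]

/-- the constants of the rows relative to the second reference -/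
noncomputable def Kr (rr M Mp : ι → ℝ) (E : ℝ) (i : ι) : ℝ := rr i * Kx M Mp E i

/-- the rates of the rows relative to the second reference -/
noncomputable def rxr (ε : ℝ) (t M Mp w rr : ι → ℝ) (b : ℕ) (E : ℝ) (i : ι) : ℝ :=
  min (mr (1 / 2 + ε) (fun i => t i / M i) w i / rr i) (cap b (thx b E) (Kr rr M Mp E i))

omit [DecidableEq ι] in
/-- the one-point densities relative to the second reference -/
theorem g1_ref [DecidableEq ι] {lam lam2 : ∀ i, V i → ℝ} {mu : (∀ i, V i) → ℝ} {rr t M : ι → ℝ}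
    {L Λ ε κ δ : ℝ} {D0 : ℕ} (P : RefPair lam lam2 mu rr)
    (h : BHyp lam mu t M L Λ ε κ δ D0) (i : ι) (a : V i) (ha : lam2 i a ≠ 0) :
    |g1 lam2 mu i a| ≤ rr i * M i := by
  have hlp : 0 < lam2 i a := lt_of_le_of_ne (P.n2 i a) (Ne.symm ha)
  have h1 : g1 lam2 mu i a = m1 mu i a / lam2 i a - 1 := by
    unfold g1 uh ug m1
    simp only [mul_sub, mul_one, Finset.sum_sub_distrib, h.sum]
    congr 1
    rw [Finset.sum_div]
    refine Finset.sum_congr rfl fun x _ => ?_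
    by_cases hx : x i = a
    · rw [if_pos hx, if_pos hx]; ring
    · rw [if_neg hx, if_neg hx]; ring
  have h2 := m1_le_M h.law h.i1 h.D1 i a
  have hM1 := h.M1 i
  have hr1 := P.rr1 i
  have h3 : m1 mu i a / lam2 i a ≤ rr i * M i := by
    rw [div_le_iff₀ hlp]
    have h5 := mul_le_mul_of_nonneg_left (P.le i a) (by linarith : 0 ≤ M i)
    calc m1 mu i a ≤ M i * lam i a := h2
      _ ≤ M i * (rr i * lam2 i a) := h5
      _ = _ := by ring
  have h4 : 0 ≤ m1 mu i a / lam2 i a := div_nonneg (Finset.sum_nonneg fun x _ => by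
    split_ifs
    · exact h.law.1 x
    · exact le_rfl) hlp.le
  have h6 : 1 ≤ rr i * M i := one_le_mul_of_one_le_of_one_le hr1 hM1
  rw [h1, abs_le]
  constructor <;> linarith

/-- **(O4) with the change of the reference.** -/
theorem rwO_ref {lam lam2 : ∀ i, V i → ℝ} {mu : (∀ i, V i) → ℝ} {rr : ι → ℝ}
    {sc : ι → Option J} {ell : J → ℝ}
    {g c1 : ℝ} {b b0 : ℕ} {R E : ι → ℝ} {t M Mp w : ι → ℝ} {L L2 Λ ε' κ' δ : ℝ}
    {p G h Kf σ Gc ε κ1 cs C1 q : ℝ} {Lo : Finset ι}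
    (P : RefPair lam lam2 mu rr) (hL2 : Ref lam2 L2)
    (hB : BHyp lam mu t M L Λ ε' κ' δ (b + 1)) (hMp : ∀ j, 1 ≤ Mp j) (hGc : 0 < Gc)
    (hH : PH lam (gr lam mu) Loᶜ Mp Gc b0) (hb0 : b + 1 ≤ b0) (hb : 1 ≤ b)
    (hw0 : ∀ j, 0 ≤ w j) (hwG : ∀ j ∉ Lo, w j ≤ 1 / Gc)
    (hsum : ∑ j ∈ Lo, 4 * w j * Mp j ≤ 1)
    (uniq : ∀ i j, sc i = none → sc j = none → i = j)
    -- numbers
    (hp : 0 < p) (hC1 : 1 ≤ C1) (hcs0 : 0 < cs) (hcs1 : cs ≤ 1) (hε : ε = cs / (12 * C1))
    (hG0 : 0 ≤ G) (hG : G ≤ ε / 8) (hh0 : 0 ≤ h) (hh : h ≤ ε / 32)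
    (hc : 2 * h + 2 * (c1 + g) ≤ ε / 2) (hκ1 : κ1 ≤ cs / 24) (hKf : 128 * (b : ℝ) ≤ Kf)
    (hs0 : 0 < σ) (hs1 : 1000 * Kf * σ * (b : ℝ) ^ 4 ≤ 1)
    (hR0 : ∀ i, 0 ≤ R i) (hE0 : ∀ i, 0 ≤ E i)
    -- ordinary sites
    (hx : ∀ i j, sc i = some j → 0 ≤ ell j ∧ ell j ≤ C1 * p)
    (ht : ∀ i j, sc i = some j → rate ((1 - G) * p) (ell j) / Kf ≤ t i)
    (hM : ∀ i j, sc i = some j → M i ≤ Real.exp (h * ell j))
    (hMp' : ∀ i j, sc i = some j → Mp i ≤ Real.exp (h * ell j))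
    (hrr : ∀ i j, sc i = some j → rr i ≤ Real.exp (h * ell j))
    (hw1 : ∀ i j, sc i = some j → ell j < p →
      Real.exp (-(1 + 2 * h) * ell j) / (4 * Kf) ≤ w i)
    (hw2 : ∀ i j, sc i = some j → p ≤ ell j → Real.exp (-(1 - cs + κ1) * p) / (4 * Kf) ≤ w i)
    (hR : ∀ i j, sc i = some j → R i ≤ σ * Real.exp (-(1 / 2) * ell j + h * ell j))
    (hE : ∀ i j, sc i = some j → E i ≤ σ * Real.exp (-ell j + h * ell j))
    -- the extra site
    (hq : 0 < q) (hq1 : ∀ i, sc i = none → q ≤ t i / M i) (hq2 : ∀ i, sc i = none → q ≤ w i)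
    (hRq : ∀ i, sc i = none → 24 * (b : ℝ) ^ 3 * (rr i * R i) ≤ q)
    (hRK : ∀ i, sc i = none →
      4608 * (b : ℝ) ^ 4 * (rr i * (M i * Mp i)) ^ 2 * (rr i * (R i + E i)) ≤ 1) :
    RwO lam2 mu sc ell g c1 b R E (rxr ε t M Mp w rr b (EE Lo w Mp)) (Kr rr M Mp (EE Lo w Mp))
      (thx b (EE Lo w Mp)) L2 := by
  have hE1 : 1 ≤ EE Lo w Mp := one_le_EE hw0 hMp
  have hE3 : EE Lo w Mp ≤ 3 := by
    unfold EE
    calc Real.exp (∑ j ∈ Lo, 4 * w j * Mp j) ≤ Real.exp 1 := Real.exp_le_exp.2 hsum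
      _ ≤ 3 := by have := Real.exp_one_lt_d9; linarith
  have hC10 : 0 < C1 := by linarith
  have hε0 : 0 < ε := by rw [hε]; positivity
  have hε1 : ε ≤ 1 / 12 := by
    rw [hε, div_le_iff₀ (by positivity)]
    nlinarith
  have hr0 : ∀ i, 0 < rr i := fun i => by linarith [P.rr1 i]
  have hKx1 : ∀ i, 1 ≤ Kx M Mp (EE Lo w Mp) i := by
    intro i
    have h1 := hB.M1 i
    have h2 := hMp i
    unfold Kx
    have h3 : 1 ≤ M i * Mp i := one_le_mul_of_one_le_of_one_le h1 h2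
    have h4 : 1 ≤ M i * Mp i * EE Lo w Mp := one_le_mul_of_one_le_of_one_le h3 hE1
    linarith
  have hK1 : ∀ i, 1 ≤ Kr rr M Mp (EE Lo w Mp) i := fun i =>
    one_le_mul_of_one_le_of_one_le (P.rr1 i) (hKx1 i)
  have hmr0 : ∀ i, 0 ≤ mr (1 / 2 + ε) (fun i => t i / M i) w i :=
    mr_nonneg (fun i => div_nonneg (hB.t0 i).le (by linarith [hB.M1 i])) hw0
  have hb1 : (1 : ℝ) ≤ b := by exact_mod_cast hb
  have hb4 : (1 : ℝ) ≤ (b : ℝ) ^ 4 := one_le_pow₀ hb1
  have hKo : ∀ i, Kr rr M Mp (EE Lo w Mp) i ^ 2 ≤ 36 * (rr i * (M i * Mp i)) ^ 2 := by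
    intro i
    have h1 := hB.M1 i
    have h2 := hMp i
    have h3 : 0 ≤ M i * Mp i := by positivity
    have h4 : Kx M Mp (EE Lo w Mp) i ≤ 6 * (M i * Mp i) := by
      unfold Kx
      have := mul_le_mul_of_nonneg_left hE3 h3
      linarith
    have h5 : Kr rr M Mp (EE Lo w Mp) i ≤ 6 * (rr i * (M i * Mp i)) := by
      unfold Kr
      calc _ ≤ rr i * (6 * (M i * Mp i)) := mul_le_mul_of_nonneg_left h4 (hr0 i).le
        _ = _ := by ring
    calc _ ≤ (6 * (rr i * (M i * Mp i))) ^ 2 := pow_le_pow_left₀ (by linarith [hK1 i]) h5 2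
      _ = _ := by ring
  -- the extra site
  have hoK : ∀ i, sc i = none →
      128 * (b : ℝ) ^ 4 * Kr rr M Mp (EE Lo w Mp) i ^ 2 * (rr i * (R i + E i)) ≤ 1 := by
    intro i hi
    have h1 : 0 ≤ rr i * (R i + E i) := mul_nonneg (hr0 i).le (add_nonneg (hR0 i) (hE0 i))
    calc _ ≤ 128 * (b : ℝ) ^ 4 * (36 * (rr i * (M i * Mp i)) ^ 2) * (rr i * (R i + E i)) :=
          mul_le_mul_of_nonneg_right (mul_le_mul_of_nonneg_left (hKo i) (by positivity)) h1
      _ = 4608 * (b : ℝ) ^ 4 * (rr i * (M i * Mp i)) ^ 2 * (rr i * (R i + E i)) := by ring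
      _ ≤ 1 := hRK i hi
  have hoR : ∀ i, sc i = none →
      128 * (b : ℝ) ^ 4 * Kr rr M Mp (EE Lo w Mp) i ^ 2 * R i ≤ 1 ∧
      128 * (b : ℝ) ^ 4 * Kr rr M Mp (EE Lo w Mp) i ^ 2 * E i ≤ 1 ∧
      128 * (b : ℝ) ^ 4 * Kr rr M Mp (EE Lo w Mp) i ^ 2 * (R i + E i) ≤ 1 := by
    intro i hi
    have h1 := hoK i hi
    have h2 : R i + E i ≤ rr i * (R i + E i) :=
      le_mul_of_one_le_left (add_nonneg (hR0 i) (hE0 i)) (P.rr1 i)
    have h3 : 0 ≤ 128 * (b : ℝ) ^ 4 * Kr rr M Mp (EE Lo w Mp) i ^ 2 := by positivity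
    refine ⟨(mul_le_mul_of_nonneg_left ?_ h3).trans h1, (mul_le_mul_of_nonneg_left ?_ h3).trans h1,
      (mul_le_mul_of_nonneg_left h2 h3).trans h1⟩
    · linarith [hE0 i]
    · linarith [hR0 i]
  -- the ordinary sites
  have hord : ∀ i j, sc i = some j → rr i * R i ≤
      σ * Real.exp (-(1 / 2) * ell j + 2 * h * ell j) := by
    intro i j hi
    calc rr i * R i ≤ Real.exp (h * ell j) * (σ * Real.exp (-(1 / 2) * ell j + h * ell j)) :=
          mul_le_mul (hrr i j hi) (hR i j hi) (hR0 i) (Real.exp_pos _).le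
      _ = σ * (Real.exp (h * ell j) * Real.exp (-(1 / 2) * ell j + h * ell j)) := by ring
      _ = _ := by
          rw [← Real.exp_add]
          congr 2
          ring
  have hKr : ∀ i j, sc i = some j →
      Kr rr M Mp (EE Lo w Mp) i ^ 2 ≤ 36 * Real.exp (4 * (2 * h * ell j)) := by
    intro i j hi
    have hx0 := (hx i j hi).1
    have h1 := (K_le hE1 hE3 (hB.M1 i) (hM i j hi) (hMp i) (hMp' i j hi)
      (K := Kx M Mp (EE Lo w Mp) i) rfl).2
    unfold Kr
    rw [mul_pow]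
    have h2 : rr i ^ 2 ≤ Real.exp (h * ell j) ^ 2 := pow_le_pow_left₀ (hr0 i).le (hrr i j hi) 2
    calc rr i ^ 2 * Kx M Mp (EE Lo w Mp) i ^ 2 ≤
        Real.exp (h * ell j) ^ 2 * (36 * Real.exp (4 * (h * ell j))) :=
          mul_le_mul h2 h1 (sq_nonneg _) (by positivity)
      _ = 36 * (Real.exp (2 * (h * ell j)) * Real.exp (4 * (h * ell j))) := by
          rw [← Real.exp_nat_mul]
          push_cast
          ring
      _ ≤ 36 * Real.exp (4 * (2 * h * ell j)) := by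
          rw [← Real.exp_add]
          have h3 : 0 ≤ h * ell j := mul_nonneg hh0 hx0
          have h4 : Real.exp (2 * (h * ell j) + 4 * (h * ell j)) ≤
              Real.exp (4 * (2 * h * ell j)) := Real.exp_le_exp.2 (by linarith)
          linarith
  have hbig : ∀ i j, sc i = some j → ∀ x : ℝ, x ≤ Real.exp (h * ell j) →
      x ≤ Real.exp (2 * h * ell j) := by
    intro i j hi x hxx
    refine hxx.trans (Real.exp_le_exp.2 ?_)
    have := mul_nonneg hh0 (hx i j hi).1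
    linarith
  refine
    { rws := ?_, ref := hL2, sum := hB.sum, K1 := hK1, g1 := ?_, th := one_le_thx b hE1
      b1 := hb, R0 := hR0, E0 := hE0, coord := fun i => cap_coord hb (hK1 i) (min_le_right _ _)
      leg := ?_, legE := ?_, root := ?_, uniq := uniq }
  · have h1 := mix_rws hB hMp hGc hH hb0 hw0 hwG (τ := 1 / 2 + ε) (by linarith) (by linarith)
    have h2 := H422.Rws.ref h1 P
    exact h2.mono P.n2 (fun i => le_min (div_nonneg (hmr0 i) (hr0 i).le) (cap_nonneg _ _ _))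
      (fun i => min_le_left _ _) (fun i => le_rfl) le_rfl
  · intro i a ha
    refine (g1_ref P hB i a ha).trans ?_
    unfold Kr
    refine mul_le_mul_of_nonneg_left ?_ (hr0 i).le
    have h1 := hB.M1 i
    have h2 := hMp i
    unfold Kx
    have h3 : 1 ≤ Mp i * EE Lo w Mp := one_le_mul_of_one_le_of_one_le h2 hE1
    have h4 : M i * 1 ≤ M i * (Mp i * EE Lo w Mp) := mul_le_mul_of_nonneg_left h3 (by linarith)
    linarith
  · intro i
    show R i * ((b : ℝ) * thx b (EE Lo w Mp)) ^ 2 ≤ _ * min _ _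
    rw [mul_min_of_nonneg _ _ (Real.exp_pos _).le, le_min_iff, mul_div_assoc',
      le_div_iff₀ (hr0 i)]
    rcases hi : sc i with _ | j
    · rw [show el ell none = 0 from rfl, mul_zero, neg_zero, Real.exp_zero, one_mul, one_mul]
      constructor
      · have h1 := leg_o hb (τ := 1 / 2 + ε) (by linarith) (by linarith) hE1 hE3 (hK1 i) hq
          (hq1 i hi) (hq2 i hi) (R := rr i * R i) (mul_nonneg (hr0 i).le (hR0 i)) (hRq i hi)
          (by
            have h2 := hoK i hi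
            have h3 : rr i * R i ≤ rr i * (R i + E i) :=
              mul_le_mul_of_nonneg_left (by linarith [hE0 i]) (hr0 i).le
            exact (mul_le_mul_of_nonneg_left h3 (by positivity)).trans h2) rfl
        have h2 := (le_min_iff.1 h1).1
        calc R i * ((b : ℝ) * thx b (EE Lo w Mp)) ^ 2 * rr i =
            rr i * R i * ((b : ℝ) * thx b (EE Lo w Mp)) ^ 2 := by ring
          _ ≤ _ := h2
      · have h1 := le_cap hb (θ := thx b (EE Lo w Mp)) (x := R i) (e := 1) (hK1 i) (hoR i hi).1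
        linarith
    · rw [show el ell (some j) = ell j from rfl]
      obtain ⟨hx0, hxC⟩ := hx i j hi
      constructor
      · have h1 := leg_mix (h := 2 * h) (c := c1 + g) (R := rr i * R i) hb hp hx0 hxC hC1 hcs0
          hcs1 hε hG0 hG (by linarith) (by linarith) hc hκ1 hKf hs0 hs1 hE1 hE3
          (ht i j hi) (hB.M1 i) (hbig i j hi _ (hM i j hi))
          (fun hlt => le_trans (div_le_div_of_nonneg_right (Real.exp_le_exp.2 (by
            have := mul_nonneg hh0 hx0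
            linarith)) (by linarith)) (hw1 i j hi hlt)) (hw2 i j hi) (hord i j hi) rfl
        calc R i * ((b : ℝ) * thx b (EE Lo w Mp)) ^ 2 * rr i =
            rr i * R i * ((b : ℝ) * thx b (EE Lo w Mp)) ^ 2 := by ring
          _ ≤ _ := h1
      · refine le_cap hb (hK1 i) (leg_sec (h := 2 * h) hb hx0 hε1 (by linarith) hc hKf hs0 hs1
          (hKr i j hi) (hR0 i) ?_)
        refine (le_mul_of_one_le_left (hR0 i) (P.rr1 i)).trans (hord i j hi)
  · intro i
    rcases hi : sc i with _ | j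
    · rw [show el ell none = 0 from rfl, mul_zero, neg_zero, Real.exp_zero]
      exact (hoR i hi).2.1
    · rw [show el ell (some j) = ell j from rfl]
      obtain ⟨hx0, hxC⟩ := hx i j hi
      refine leg_sec (h := 2 * h) hb hx0 hε1 (by linarith) hc hKf hs0 hs1 (hKr i j hi) (hE0 i)
        ((hE i j hi).trans ?_)
      apply mul_le_mul_of_nonneg_left _ hs0.le
      apply Real.exp_le_exp.2
      have := mul_nonneg hh0 hx0
      linarith
  · intro i hi
    have h1 := (hoR i hi).2.2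
    have h2 : 0 ≤ Kr rr M Mp (EE Lo w Mp) i ^ 2 * (R i + E i) :=
      mul_nonneg (sq_nonneg _) (add_nonneg (hR0 i) (hE0 i))
    nlinarith

/-- the properties of the explicit rates of Theorem H -/
theorem wO_spec [Fintype J] [DecidableEq J] {sc : ι → Option J} {ell : J → ℝ} {Mp : ι → ℝ}
    {p h Kf Gc κ1 cs q : ℝ} (hMp : ∀ j, 1 ≤ Mp j) (hGc : 0 < Gc)
    (uniq : ∀ i j, sc i = none → sc j = none → i = j) (hKf0 : 0 < Kf)
    (hGG : Gc ≤ 4 * Kf * Real.exp ((1 - cs + κ1) * p))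
    (hcard : ∀ j, ((univ.filter fun i => sc i = some j).card : ℝ) ≤ Real.exp (ell j))
    (hJ : ∑ j, Real.exp (-(h * ell j)) ≤ Kf / 2)
    (hMp' : ∀ i j, sc i = some j → Mp i ≤ Real.exp (h * ell j))
    (hq2 : ∀ i, sc i = none → 8 * Mp i * q ≤ 1) :
    (∀ i, 0 ≤ wO sc ell p h Kf (1 - cs + κ1) Mp i) ∧
    (∀ i ∉ LoO sc ell p, wO sc ell p h Kf (1 - cs + κ1) Mp i ≤ 1 / Gc) ∧
    ∑ i ∈ LoO sc ell p, 4 * wO sc ell p h Kf (1 - cs + κ1) Mp i * Mp i ≤ 1 ∧
    (∀ i j, sc i = some j → ell j < p → Real.exp (-(1 + 2 * h) * ell j) / (4 * Kf) ≤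
      wO sc ell p h Kf (1 - cs + κ1) Mp i) ∧
    (∀ i j, sc i = some j → p ≤ ell j → Real.exp (-(1 - cs + κ1) * p) / (4 * Kf) ≤
      wO sc ell p h Kf (1 - cs + κ1) Mp i) ∧
    ∀ i, sc i = none → q ≤ wO sc ell p h Kf (1 - cs + κ1) Mp i := by
  classical
  set w : ι → ℝ := wO sc ell p h Kf (1 - cs + κ1) Mp with hw
  have hwn : ∀ i, sc i = none → w i = 1 / (8 * Mp i) := by
    intro i hi
    rw [hw]
    unfold wO
    rw [hi]
  have hws : ∀ i j, sc i = some j → w i = if ell j < p then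
      Real.exp (-(1 + 2 * h) * ell j) / (4 * Kf) else
      Real.exp (-((1 - cs + κ1) * p)) / (4 * Kf) := by
    intro i j hi
    rw [hw]
    unfold wO
    rw [hi]
  refine ⟨fun i => ?_, fun i hi => ?_, ?_, fun i j hi hlt => ?_, fun i j hi hle => ?_,
    fun i hi => ?_⟩
  · rcases hi : sc i with _ | j
    · rw [hwn i hi]
      have := hMp i
      positivity
    · rw [hws i j hi]
      split_ifs <;> positivity
  · rw [mem_LoO] at hi
    push Not at hi
    obtain ⟨j, hj, hpj⟩ := hi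
    rw [hws i j hj, if_neg (by linarith), div_le_div_iff₀ (by positivity) hGc, one_mul]
    calc Real.exp (-((1 - cs + κ1) * p)) * Gc ≤ Real.exp (-((1 - cs + κ1) * p)) *
          (4 * Kf * Real.exp ((1 - cs + κ1) * p)) :=
          mul_le_mul_of_nonneg_left hGG (Real.exp_pos _).le
      _ = 4 * Kf * (Real.exp (-((1 - cs + κ1) * p)) * Real.exp ((1 - cs + κ1) * p)) := by ring
      _ = 4 * Kf := by rw [← Real.exp_add]; simp
  · -- the sum over the low sites
    have h1 : ∑ i ∈ LoO sc ell p, 4 * w i * Mp i ≤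
        ∑ i, ((if sc i = none then 1 / 2 else 0) + ∑ j, if sc i = some j then
          Real.exp (-(1 + h) * ell j) / Kf else 0) := by
      have h0 : ∀ i : ι, 0 ≤ ((if sc i = none then 1 / 2 else 0) + ∑ j, if sc i = some j then
          Real.exp (-(1 + h) * ell j) / Kf else 0 : ℝ) := by
        intro i
        refine add_nonneg (by split_ifs <;> norm_num) (Finset.sum_nonneg fun j _ => ?_)
        split_ifs
        · positivity
        · exact le_rfl
      refine le_trans (Finset.sum_le_sum fun i hi => ?_)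
        (Finset.sum_le_sum_of_subset_of_nonneg (Finset.subset_univ (LoO sc ell p))
          fun i _ _ => h0 i)
      rw [mem_LoO] at hi
      rcases hs : sc i with _ | j
      · rw [hwn i hs]
        have h2 := hMp i
        have h3 : 4 * (1 / (8 * Mp i)) * Mp i = 1 / 2 := by
          field_simp
          ring
        rw [h3]
        simp
      · rw [hws i j hs, if_pos (hi j hs)]
        rw [if_neg (by simp), zero_add]
        have h4 : ∑ j', (if some j = some j' then Real.exp (-(1 + h) * ell j') / Kf else 0) =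
            Real.exp (-(1 + h) * ell j) / Kf := by
          simp
        rw [h4]
        have h5 := hMp' i j hs
        calc 4 * (Real.exp (-(1 + 2 * h) * ell j) / (4 * Kf)) * Mp i
            ≤ 4 * (Real.exp (-(1 + 2 * h) * ell j) / (4 * Kf)) * Real.exp (h * ell j) :=
              mul_le_mul_of_nonneg_left h5 (by positivity)
          _ = (Real.exp (-(1 + 2 * h) * ell j) * Real.exp (h * ell j)) / Kf := by
              field_simp
          _ = _ := by
              rw [← Real.exp_add]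
              congr 2
              ring
    refine h1.trans ?_
    rw [Finset.sum_add_distrib, Finset.sum_comm]
    have h2 : ∑ i, (if sc i = none then (1 / 2 : ℝ) else 0) ≤ 1 / 2 := by
      rw [← Finset.sum_filter, Finset.sum_const, nsmul_eq_mul]
      have h3 : (univ.filter fun i => sc i = none).card ≤ 1 := by
        rw [Finset.card_le_one]
        intro a ha a' ha'
        exact uniq a a' (Finset.mem_filter.1 ha).2 (Finset.mem_filter.1 ha').2
      have h4 : (((univ.filter fun i => sc i = none).card : ℕ) : ℝ) ≤ 1 := by exact_mod_cast h3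
      nlinarith
    have h5 : ∀ j, ∑ i, (if sc i = some j then Real.exp (-(1 + h) * ell j) / Kf else 0) ≤
        Real.exp (-(h * ell j)) / Kf := by
      intro j
      rw [← Finset.sum_filter, Finset.sum_const, nsmul_eq_mul]
      calc _ ≤ Real.exp (ell j) * (Real.exp (-(1 + h) * ell j) / Kf) :=
            mul_le_mul_of_nonneg_right (hcard j) (by positivity)
        _ = (Real.exp (ell j) * Real.exp (-(1 + h) * ell j)) / Kf := by ring
        _ = _ := by
            rw [← Real.exp_add]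
            congr 2
            ring
    have h6 : ∑ j, ∑ i, (if sc i = some j then Real.exp (-(1 + h) * ell j) / Kf else 0) ≤
        1 / 2 := by
      refine (Finset.sum_le_sum fun j _ => h5 j).trans ?_
      rw [← Finset.sum_div, div_le_iff₀ hKf0]
      linarith
    linarith
  · rw [hws i j hi, if_pos hlt]
  · rw [hws i j hi, if_neg (by linarith)]
    apply le_of_eq
    congr 2
    ring
  · rw [hwn i hi, le_div_iff₀ (by have := hMp i; positivity)]
    have := hq2 i hi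
    linarith

/-- **(O4) with the change of the reference, explicit rates of Theorem H.** -/
theorem rwO_ref' [Fintype J] [DecidableEq J] {lam lam2 : ∀ i, V i → ℝ} {mu : (∀ i, V i) → ℝ}
    {rr : ι → ℝ} {sc : ι → Option J} {ell : J → ℝ}
    {g c1 : ℝ} {b b0 : ℕ} {R E : ι → ℝ} {t M Mp : ι → ℝ} {L L2 Λ ε' κ' δ : ℝ}
    {p G h Kf σ Gc ε κ1 cs C1 q : ℝ}
    (P : RefPair lam lam2 mu rr) (hL2 : Ref lam2 L2)
    (hB : BHyp lam mu t M L Λ ε' κ' δ (b + 1)) (hMp : ∀ j, 1 ≤ Mp j) (hGc : 0 < Gc)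
    (hH : PH lam (gr lam mu) (LoO sc ell p)ᶜ Mp Gc b0) (hb0 : b + 1 ≤ b0) (hb : 1 ≤ b)
    (uniq : ∀ i j, sc i = none → sc j = none → i = j)
    (hp : 0 < p) (hC1 : 1 ≤ C1) (hcs0 : 0 < cs) (hcs1 : cs ≤ 1) (hε : ε = cs / (12 * C1))
    (hG0 : 0 ≤ G) (hG : G ≤ ε / 8) (hh0 : 0 ≤ h) (hh : h ≤ ε / 32)
    (hc : 2 * h + 2 * (c1 + g) ≤ ε / 2) (hκ1 : κ1 ≤ cs / 24) (hKf : 128 * (b : ℝ) ≤ Kf)
    (hGG : Gc ≤ 4 * Kf * Real.exp ((1 - cs + κ1) * p))
    (hs0 : 0 < σ) (hs1 : 1000 * Kf * σ * (b : ℝ) ^ 4 ≤ 1)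
    (hR0 : ∀ i, 0 ≤ R i) (hE0 : ∀ i, 0 ≤ E i)
    (hcard : ∀ j, ((univ.filter fun i => sc i = some j).card : ℝ) ≤ Real.exp (ell j))
    (hJ : ∑ j, Real.exp (-(h * ell j)) ≤ Kf / 2)
    (hx : ∀ i j, sc i = some j → 0 ≤ ell j ∧ ell j ≤ C1 * p)
    (ht : ∀ i j, sc i = some j → rate ((1 - G) * p) (ell j) / Kf ≤ t i)
    (hM : ∀ i j, sc i = some j → M i ≤ Real.exp (h * ell j))
    (hMp' : ∀ i j, sc i = some j → Mp i ≤ Real.exp (h * ell j))
    (hrr : ∀ i j, sc i = some j → rr i ≤ Real.exp (h * ell j))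
    (hR : ∀ i j, sc i = some j → R i ≤ σ * Real.exp (-(1 / 2) * ell j + h * ell j))
    (hE : ∀ i j, sc i = some j → E i ≤ σ * Real.exp (-ell j + h * ell j))
    (hq : 0 < q) (hq1 : ∀ i, sc i = none → q ≤ t i / M i)
    (hq2 : ∀ i, sc i = none → 8 * Mp i * q ≤ 1)
    (hRq : ∀ i, sc i = none → 24 * (b : ℝ) ^ 3 * (rr i * R i) ≤ q)
    (hRK : ∀ i, sc i = none →
      4608 * (b : ℝ) ^ 4 * (rr i * (M i * Mp i)) ^ 2 * (rr i * (R i + E i)) ≤ 1) :
    ∃ r K θ, RwO lam2 mu sc ell g c1 b R E r K θ L2 := by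
  have hb1 : (1 : ℝ) ≤ b := by exact_mod_cast hb
  have hKf0 : 0 < Kf := by linarith
  obtain ⟨hw0, hwG, hsum, hw1, hw2, hw3⟩ := wO_spec (p := p) (cs := cs) (κ1 := κ1) (q := q) hMp hGc
    uniq hKf0 hGG hcard hJ hMp' hq2
  exact ⟨_, _, _, rwO_ref (q := q) P hL2 hB hMp hGc hH hb0 hb hw0 hwG hsum uniq hp hC1 hcs0 hcs1
    hε hG0 hG hh0 hh hc hκ1 hKf hs0 hs1 hR0 hE0 hx ht hM hMp' hrr hw1 hw2 hR hE hq hq1 hw3 hRq hRK⟩

end Vale.Agent.P042.H276
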