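import Vale.Agent.P042.H276.HighP
import Vale.Agent.P042.H372.LowR
import Vale.Agent.P042.H386.PHAll

/-!
# P042, F.INF3: rows with a super-modulus, in the order of `Regime`

`rwo_plaw`: `PHof` (Theorem H) and the hypotheses of the pair of laws give 564's `RwOK` for both
laws, at every order and every scale.
-/

set_option autoImplicit false

namespace Vale.Agent.P042.H276

open Finset Vale.Agent.P042.H461 Vale.Agent.P042.H742
open Vale.Agent.P042.H564.Oo (po RwOK)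
open Vale.Agent.P042.H92 (Prm PLaw PPair Scl LF tF)
open Vale.Agent.P042.H386 (PHof scl_card)
open Vale.Agent.P042.H372 (OrdN tO bhypO_plaw K0r p0r ordN_reg p0r_two)
open Vale.Agent.P042.H284 (eo eo_none eo_some)

/-- one law -/
theorem rwo_one (hPH : PHof) {C1 : ℝ} (hC1 : 4 ≤ C1) : ∃ k0 : ℝ, 0 < k0 ∧
    ∀ (CK : ℕ), 1 ≤ CK → ∀ G : ℝ, 0 < G → G ≤ epx C1 / 8 → ∀ c1 g : ℝ, c1 + g ≤ epx C1 / 8 →
    ∀ γ d1 : ℝ, 0 < γ → γ ≤ k0 → 0 < d1 → d1 ≤ k0 → ∀ a0 : ℝ, 0 ≤ a0 →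
    ∃ K1 : ℕ, ∀ K0 : ℕ, K1 ≤ K0 → ∀ θ c0 cD : ℝ, 0 < θ → 0 < c0 → 0 < cD →
    cD ≤ k0 * (γ * θ) → ∃ p0 : ℝ, ∀ p : ℝ, p0 ≤ p → ∀ (kap : ℝ)
    (J : Type) [Fintype J] [DecidableEq J] (ι : Type) [Fintype ι] [DecidableEq ι]
    (V : Option ι → Type) [∀ i, Fintype (V i)] [∀ i, DecidableEq (V i)] (ℓ es : Option ι → ℝ)
    (sc : ι → J) (sn : J → ℕ) (ell : J → ℝ) (lam lam2 u : ∀ i, V i → ℝ)
    (rho e : Option ι → ℝ) (mu : (∀ i, V i) → ℝ),
    Scl ⟨p, C1, γ, a0, θ, c0, cD, kap, d1, G, CK⟩ K0 univ (fun i => ℓ (some i))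
      (fun i => es (some i)) sc sn ell →
    PLaw ⟨p, C1, γ, a0, θ, c0, cD, kap, d1, G, CK⟩ (univ.erase none) ℓ es lam u mu →
    (∀ i, lam2 i = lam i ∨ lam2 i = u i) → (∀ i, 0 ≤ rho i) → (∀ i, 0 ≤ e i) →
    (∀ i, rho (some i) ≤ Real.exp (-(1 / 2) * es (some i) + γ * es (some i))) →
    (∀ i, e (some i) ≤ Real.exp (-es (some i) + γ * es (some i))) →
    0 ≤ ℓ none → ℓ none ≤ Real.exp (2 * d1 * p) → rho none ≤ Real.exp (-ℓ none) →
    e none ≤ Real.exp (-ℓ none) → ∀ b : ℕ, 1 ≤ b → (b : ℝ) ≤ Real.exp (d1 * p) + 1 →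
    ∀ (j : J) [DecidablePred (po sc ell j)] (σ : ℝ), 0 < σ →
    σ ≤ (((1 + ℓ none) * (b * ell j)) ^ (CK + 9))⁻¹ → RwOK lam2 rho e mu sc ell g c1 b j σ := by
  obtain ⟨k1, hk1, H1⟩ := hPH C1 hC1
  have hC10 : 0 < C1 := by linarith
  have heps : 0 < epx C1 := by
    unfold epx
    positivity
  refine ⟨min k1 (min (epx C1 / 128) (1 / 4)), by positivity, ?_⟩
  intro CK hCK G hG0 hG c1 g hcg γ d1 hγ0 hγ hd0 hd a0 ha0
  have hγ1 : γ ≤ k1 := hγ.trans (min_le_left _ _)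
  have hγ2 : γ ≤ epx C1 / 128 := hγ.trans ((min_le_right _ _).trans (min_le_left _ _))
  have hd1 : d1 ≤ k1 := hd.trans (min_le_left _ _)
  have hd2 : d1 ≤ 1 / 4 := hd.trans ((min_le_right _ _).trans (min_le_right _ _))
  obtain ⟨K1, hK1⟩ := exists_K0Ok (C1 := C1) (by linarith) CK a0
  refine ⟨max K1 (K0r CK a0 γ), ?_⟩
  intro K0 hK0 θ c0 cD hθ hc0 hcD hcD1
  have hK01 := hK1 K0 ((le_max_left _ _).trans hK0)
  have hK02 : K0r CK a0 γ ≤ K0 := (le_max_right _ _).trans hK0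
  obtain ⟨p1, H2⟩ := H1 γ d1 hγ0 hγ1 hd0 hd1 a0 ha0 θ c0 cD hθ hc0 hcD (hcD1.trans
    (mul_le_mul_of_nonneg_right (min_le_left _ _) (by positivity)))
  refine ⟨max p1 (max (p0r C1 θ d1) ((C1 + 1) / (2 * d1 ^ 2))), ?_⟩
  intro p hp kap J _ _ ι _ _ V _ _ ℓ es sc sn ell lam lam2 u rho e mu S P h2 hrho0 he0 hrho1 he1
    hlo hlo1 hrhoo heo b hb hb' j _ σ hσ0 hσ
  have hpp1 : p1 ≤ p := (le_max_left _ _).trans hp
  have hpp2 : p0r C1 θ d1 ≤ p := ((le_max_left _ _).trans (le_max_right _ _)).trans hp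
  have hpp3 : (C1 + 1) / (2 * d1 ^ 2) ≤ p :=
    ((le_max_right _ _).trans (le_max_right _ _)).trans hp
  set Q : Prm := ⟨p, C1, γ, a0, θ, c0, cD, kap, d1, G, CK⟩ with hQ
  obtain ⟨hN, hm, hn, hlen, hcard, -, hp1⟩ := ordN_reg (C1 := C1) (γ := γ) (a0 := a0) (θ := θ)
    (d1 := d1) (CK := CK) hCK (by linarith) hγ0 ha0 hθ hd0 hd2 (Q := Q) hpp2 rfl rfl rfl rfl rfl
    rfl hK02 S hlo hlo1 hb hb' j
  have hp1' : (1 : ℝ) ≤ p := hp1
  -- sizes
  have hbig : C1 * p + 1 ≤ Real.exp (2 * d1 * p) := by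
    rw [div_le_iff₀ (by positivity)] at hpp3
    have h3 := Real.pow_div_factorial_le_exp (2 * d1 * p) (by positivity) 2
    have h4 : ((2 : ℕ).factorial : ℝ) = 2 := by norm_num [Nat.factorial]
    rw [h4] at h3
    refine le_trans ?_ h3
    have h5 : (C1 + 1) * p ≤ p * (2 * d1 ^ 2) * p := mul_le_mul_of_nonneg_right hpp3 (by linarith)
    nlinarith
  have hes : ∀ i : ι, es (some i) = ell (sc i) := fun i => S.es1 i (Finset.mem_univ i)
  have htop : ∀ i : ι, es (some i) ≤ C1 * p + 1 := fun i => by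
    rw [hes i]
    exact S.top (sc i)
  have hup : ∀ i : ι, ℓ (some i) ≤ es (some i) := fun i => S.up i (Finset.mem_univ i)
  have hK01' : 1 ≤ K0 := by
    have h3 := hK01.two
    have h4 : 0 ≤ 4 / (epx C1 / 32) := by positivity
    have h5 : (1 : ℝ) ≤ K0 := by linarith
    exact_mod_cast h5
  have hl0 : ∀ i, 0 ≤ ℓ i := by
    intro i
    cases i with
    | none => exact hlo
    | some i => exact l_nonneg S hK01' i
  have hsome : ∀ i : Option ι, i ∈ (univ.erase none : Finset (Option ι)) → ∃ k, i = some k := by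
    intro i hi
    cases i with
    | none => exact absurd rfl (Finset.ne_of_mem_erase hi)
    | some k => exact ⟨k, rfl⟩
  have hep1 : epx C1 ≤ 1 := by
    unfold epx
    rw [div_le_one (by positivity), div_le_iff₀ (by positivity)]
    nlinarith
  -- block [B]
  have hB := bhypO_plaw P (o := none) (by simp) (fun i hi => Finset.mem_erase.2 ⟨hi, mem_univ i⟩)
    (fun i hi => by obtain ⟨k, rfl⟩ := hsome i hi; exact hup k) hl0 (po sc ell j)
    (by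
      show eo ell (Option.map sc none) ≤ ell j
      rw [Option.map_none, eo_none]
      rw [S.ell1 j]
      have : (0 : ℝ) ≤ Real.log 2 := by linarith [log_two_half]
      positivity)
    (b := b) (m := max (b + 1) ⌊ℓ none⌋₊) (n := sn j)
    (fun i hi hi0 => by
      cases i with
      | none => exact absurd rfl hi0
      | some k =>
        rw [hes k, ← S.ell1 j]
        exact hi)
    hcard hN hm hn hlen hγ0.le (by
      show γ ≤ 1
      linarith)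
  -- Theorem H
  have hcS : ((univ.erase none : Finset (Option ι)).card : ℝ) ≤ Real.exp (C1 * p + 3) := by
    have h3 := scl_card S (by show (0 : ℝ) ≤ C1 * p + 1; positivity)
    have h4 : (univ.erase none : Finset (Option ι)).card = (univ : Finset ι).card := by
      rw [Finset.card_erase_of_mem (mem_univ _), Finset.card_univ, Fintype.card_option,
        Finset.card_univ]
      rfl
    rw [h4]
    refine h3.trans (Real.exp_le_exp.2 ?_)
    show C1 * p + 2 ≤ C1 * p + 3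
    linarith
  have hH := H2 p hpp1 kap G CK (Option ι) V (univ.erase none) ℓ es lam u mu P
    (by
      have h3 : (univ \ univ.erase none : Finset (Option ι)) ⊆ {none} := by
        intro i hi
        rw [Finset.mem_sdiff] at hi
        by_contra hc
        exact hi.2 (Finset.mem_erase.2 ⟨by simpa using hc, mem_univ i⟩)
      exact (Finset.card_le_card h3).trans (by simp))
    (fun i => by
      cases i with
      | none => exact hlo1
      | some k => exact ((hup k).trans (htop k)).trans hbig)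
    (fun i hi => by obtain ⟨k, rfl⟩ := hsome i hi; exact ⟨hup k, htop k⟩) hcS
    (univ.filter fun i => i ≠ none ∧ Q.p ≤ es i)
    (fun i hi => Finset.mem_erase.2 ⟨(Finset.mem_filter.1 hi).2.1, mem_univ i⟩)
    (fun i hi => by
      have h3 : p ≤ es i := (Finset.mem_filter.1 hi).2.2
      linarith)
  have hb0 : b + 1 ≤ ⌊Real.exp (3 * d1 * p)⌋₊ := by
    apply Nat.le_floor
    push_cast
    have h3 := p0r_two hd0 hpp2
    have h4 : Real.exp (3 * d1 * p) = Real.exp (d1 * p) ^ 3 := by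
      rw [← Real.exp_nat_mul]
      congr 1
      push_cast
      ring
    rw [h4]
    nlinarith [sq_nonneg (Real.exp (d1 * p) - 2)]
  have he3 : 2 * Real.exp 3 ≤ 41 := by
    have h3 : Real.exp 3 = Real.exp 1 ^ 3 := by
      rw [← Real.exp_nat_mul]; norm_num
    rw [h3]
    have h4 := Real.exp_one_lt_d9
    have h5 : Real.exp 1 ^ 3 ≤ (2.7183 : ℝ) ^ 3 :=
      pow_le_pow_left₀ (Real.exp_pos 1).le (by linarith) 3
    have h6 : (2.7183 : ℝ) ^ 3 ≤ 20.5 := by norm_num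
    linarith
  refine rwo_high_plaw (Q := Q) (K0 := K0) (es := es) (ℓ := ℓ) (u := u) (lam := lam) (sn := sn)
    (b0 := ⌊Real.exp (3 * d1 * p)⌋₊) (t := fun i => tO Q (univ.erase none) es
      (max (b + 1) ⌊ℓ none⌋₊) (sn j) none i) (M := fun i => Real.exp (Q.a0 + Q.γ * ℓ i))
    (Mp := fun i => (2 * Real.exp 3 * Real.exp a0) ^ 2 * Real.exp (2 * (γ * ℓ i)))
    (Gc := Real.exp ((1 - 1 / (24 * C1)) * p)) (by show (1 : ℝ) ≤ C1; linarith) hp1 hG0.le hG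
    hγ0.le hγ2 hcg ha0 hCK hK01 S P h2 hlo hb hb0 hrho0 he0 hrho1 he1 hrhoo heo hσ0 hσ hB
    (fun i => le_rfl) ?_ ?_ ?_ ?_ (Real.exp_pos _) le_rfl hH
  · intro i hi
    have h3 : es (some i) ≤ sn j * Real.log 2 := by
      rw [hes i, ← S.ell1 j]
      exact hi
    have h4 : tO Q (univ.erase none) es (max (b + 1) ⌊ℓ none⌋₊) (sn j) none (some i) =
        tF Q (univ.erase none) es (max (b + 1) ⌊ℓ none⌋₊) (sn j) (some i) :=
      Function.update_of_ne (by simp) _ _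
    rw [h4]
    unfold tF
    rw [if_pos ⟨by simp, h3⟩]
    exact le_rfl
  · intro h
    have h4 : tO Q (univ.erase none) es (max (b + 1) ⌊ℓ none⌋₊) (sn j) none none =
        OrdN.τ (max (b + 1) ⌊ℓ none⌋₊) (sn j) := Function.update_self _ _ _
    rw [h4]
    exact le_rfl
  · intro i
    have h3 : 1 ≤ Real.exp 3 := Real.one_le_exp (by norm_num)
    have h4 : 1 ≤ Real.exp a0 := Real.one_le_exp ha0
    have h5 : 1 ≤ 2 * Real.exp 3 * Real.exp a0 :=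
      one_le_mul_of_one_le_of_one_le (by linarith) h4
    exact one_le_mul_of_one_le_of_one_le (one_le_pow₀ h5)
      (Real.one_le_exp (by have := hl0 i; positivity))
  · intro i
    have h3 : Real.exp (2 * (γ * ℓ i)) = Real.exp (2 * Q.γ * ℓ i) := by
      congr 1
      show 2 * (γ * ℓ i) = 2 * γ * ℓ i
      ring
    rw [h3]
    show (2 * Real.exp 3 * Real.exp a0) ^ 2 * _ ≤ (41 * Real.exp a0) ^ 2 * _
    gcongr

/-- **Rows with a super-modulus for the two laws of a pair.** -/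
theorem rwo_plaw (hPH : PHof) {C1 : ℝ} (hC1 : 4 ≤ C1) : ∃ k0 : ℝ, 0 < k0 ∧
    ∀ (CK : ℕ), 1 ≤ CK → ∀ G : ℝ, 0 < G → G ≤ epx C1 / 8 → ∀ c1 g : ℝ, c1 + g ≤ epx C1 / 8 →
    ∀ γ d1 : ℝ, 0 < γ → γ ≤ k0 → 0 < d1 → d1 ≤ k0 → ∀ a0 : ℝ, 0 ≤ a0 →
    ∃ K1 : ℕ, ∀ K0 : ℕ, K1 ≤ K0 → ∀ θ c0 cD : ℝ, 0 < θ → 0 < c0 → 0 < cD →
    cD ≤ k0 * (γ * θ) → ∃ p0 : ℝ, ∀ p : ℝ, p0 ≤ p → ∀ (kap : ℝ)
    (J : Type) [Fintype J] [DecidableEq J] (ι : Type) [Fintype ι] [DecidableEq ι]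
    (V : Option ι → Type) [∀ i, Fintype (V i)] [∀ i, DecidableEq (V i)] (ℓ es : Option ι → ℝ)
    (sc : ι → J) (sn : J → ℕ) (ell : J → ℝ) (lo : Option ι → Prop) (lam lam2 u : ∀ i, V i → ℝ)
    (K : ∀ i, V i → V i → ℝ) (c : Option ι → ℝ) (v v' : ∀ i, V i → ℝ)
    (s : ∀ i, V i → V i → ℝ) (rho e : Option ι → ℝ) (mu mu' : (∀ i, V i) → ℝ),
    Scl ⟨p, C1, γ, a0, θ, c0, cD, kap, d1, G, CK⟩ K0 univ (fun i => ℓ (some i))
      (fun i => es (some i)) sc sn ell →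
    PPair ⟨p, C1, γ, a0, θ, c0, cD, kap, d1, G, CK⟩ (univ.erase none) ℓ es lo lam lam2 u K c v v'
      s rho e mu mu' →
    0 ≤ ℓ none → ℓ none ≤ Real.exp (2 * d1 * p) → rho none ≤ Real.exp (-ℓ none) →
    e none ≤ Real.exp (-ℓ none) → ∀ b : ℕ, 1 ≤ b → (b : ℝ) ≤ Real.exp (d1 * p) + 1 →
    ∀ (j : J) [DecidablePred (po sc ell j)] (σ : ℝ), 0 < σ →
    σ ≤ (((1 + ℓ none) * (b * ell j)) ^ (CK + 9))⁻¹ →
    RwOK lam2 rho e mu sc ell g c1 b j σ ∧ RwOK lam2 rho e mu' sc ell g c1 b j σ := by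
  obtain ⟨k0, hk0, H⟩ := rwo_one hPH hC1
  refine ⟨k0, hk0, ?_⟩
  intro CK hCK G hG0 hG c1 g hcg γ d1 hγ0 hγ hd0 hd a0 ha0
  obtain ⟨K1, H1⟩ := H CK hCK G hG0 hG c1 g hcg γ d1 hγ0 hγ hd0 hd a0 ha0
  refine ⟨K1, ?_⟩
  intro K0 hK0 θ c0 cD hθ hc0 hcD hcD1
  obtain ⟨p0, H2⟩ := H1 K0 hK0 θ c0 cD hθ hc0 hcD hcD1
  refine ⟨p0, ?_⟩
  intro p hp kap J _ _ ι _ _ V _ _ ℓ es sc sn ell lo lam lam2 u K c v v' s rho e mu mu' S P
    hlo hlo1 hrhoo heo b hb hb' j _ σ hσ0 hσ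
  have h2 : ∀ i, lam2 i = lam i ∨ lam2 i = u i := fun i => by
    by_cases h : lo i
    · exact Or.inl (P.low i h)
    · exact Or.inr (P.high i h)
  have hr1 : ∀ i, rho (some i) ≤ Real.exp (-(1 / 2) * es (some i) + γ * es (some i)) := fun i =>
    P.rho1 (some i) (by simp)
  have he1 : ∀ i, e (some i) ≤ Real.exp (-es (some i) + γ * es (some i)) := fun i =>
    P.e1 (some i) (by simp)
  exact ⟨H2 p hp kap J ι V ℓ es sc sn ell lam lam2 u rho e mu S P.law h2 P.ob.rho0 P.ob.e0 hr1 he1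
      hlo hlo1 hrhoo heo b hb hb' j σ hσ0 hσ,
    H2 p hp kap J ι V ℓ es sc sn ell lam lam2 u rho e mu' S P.law' h2 P.ob.rho0 P.ob.e0 hr1 he1
      hlo hlo1 hrhoo heo b hb hb' j σ hσ0 hσ⟩

end Vale.Agent.P042.H276
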